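import Vale.Agent.P011N.Cl.JT.Un
import Vale.Agent.P011N.Cl.T.Split
import Vale.Agent.P011N.Cl.EI.Gen
import Vale.Agent.P011.H900.BrgE

/-!
The models: descent to the field fixed by the normal subgroup.
-/

namespace Vale.Agent.P011N.Cl.MD

open Vale.Agent.P011.MPQ Vale.Agent.P011.D4 Vale.Agent.P011.D4.Oct Vale.Agent.P011.E6 Equiv Module
open Vale.Agent.P011.E6.Alb Vale.Agent.P011N.Cl.EI
open Vale.Agent.P011.H900 (Al Oc ae oe Cub Her Ph Aut Dvn grp re om oc ap pc_apply cub_eq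
  ae_d1 ae_d2 ae_d3 ae_x1 ae_x2 ae_x3)

section brg

variable {E : Type} [Field E] {a b c : Eˣ}

theorem ae_ph (r : E → E) (e : E) (x : Al (a : E) b) :
    ae a b c (Vale.Agent.P011.H900.ph r e x) = ph6 r e (ae a b c x) := rfl

theorem tf_wt' (g : Fin 3 → Eˣ) (x y : Alb a b c) : tf (wt g x) y = tf x (wt g y) := by
  simp only [tf, wt, bil_smul_left, bil_smul_right]
  ring

theorem her_ae (s : E → E) (g : Fin 3 → Eˣ) (x y : Al (a : E) b) :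
    Vale.Agent.P011.H900.her (c : E) s (fun i => (g i : E)) x y =
      tf (wt g (ae a b c x)) (jA s (ae a b c y)) := by
  have h : ∀ (t : E) (u v : Oc (a : E) b), bil (t • (oe a b c).symm u) (jO s ((oe a b c).symm v)) =
      t * (2 * re (om (c : E) u (oc (ap s v)))) := fun t u v => by
    rw [bil_smul_left, Vale.Agent.P011.H900.bil_eq]
    rfl
  simp only [Vale.Agent.P011.H900.her, Fin.sum_univ_three, tf, wt, jA, ae_d1, ae_d2, ae_d3,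
    ae_x1, ae_x2, ae_x3, h]
  rw [show (0 : Fin 3) + 1 = 1 from rfl, show (0 : Fin 3) + 2 = 2 from rfl,
    show (1 : Fin 3) + 1 = 2 from rfl, show (1 : Fin 3) + 2 = 0 from rfl,
    show (2 : Fin 3) + 1 = 0 from rfl, show (2 : Fin 3) + 2 = 1 from rfl]
  ring

theorem cub_ae (f : Perm (Al (a : E) b)) : Cub (c : E) f ↔
    Semi (id : E → E) ((ae a b c).permCongr f) ∧ ∀ x, cub ((ae a b c).permCongr f x) = cub x := by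
  refine and_congr ⟨fun h t x y => ?_, fun h t x y => ?_⟩ ⟨fun h x => ?_, fun h x => ?_⟩
  · obtain ⟨x, rfl⟩ := (ae a b c).surjective x
    obtain ⟨y, rfl⟩ := (ae a b c).surjective y
    rw [pc_apply, pc_apply]
    exact (pc_apply f (t • x + y)).trans (congrArg (ae a b c) (h t x y))
  · have h1 := h t (ae a b c x) (ae a b c y)
    rw [pc_apply, pc_apply] at h1
    exact (ae a b c).injective ((pc_apply f (t • x + y)).symm.trans h1)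
  · exact (cub_eq _).symm.trans ((h _).trans (cub_eq _))
  · rw [cub_eq, cub_eq, ← h (ae a b c x),
      pc_apply]

theorem ph_ae (r : E → E) (e : E) (f : Perm (Al (a : E) b)) : Ph r e f ↔
    ∀ x, (ae a b c).permCongr f (ph6 r e x) = ph6 r e ((ae a b c).permCongr f x) := by
  refine ⟨fun h x => ?_, fun h x => (ae a b c).injective ?_⟩
  · obtain ⟨x, rfl⟩ := (ae a b c).surjective x
    rw [← ae_ph, pc_apply, pc_apply, h, ae_ph]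
  · rw [ae_ph, ← pc_apply, ae_ph, h, pc_apply]

theorem her_iff_ae (s : E → E) (g : Fin 3 → Eˣ) (f : Perm (Al (a : E) b)) :
    Her (c : E) s (fun i => (g i : E)) f ↔ ∀ x y, tf (wt g ((ae a b c).permCongr f x))
      (jA s ((ae a b c).permCongr f y)) = tf (wt g x) (jA s y) := by
  refine ⟨fun h x y => ?_, fun h x y => ?_⟩
  · obtain ⟨x, rfl⟩ := (ae a b c).surjective x
    obtain ⟨y, rfl⟩ := (ae a b c).surjective y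
    rw [pc_apply, pc_apply, ← her_ae, ← her_ae, h]
  · rw [her_ae, her_ae, ← h (ae a b c x), pc_apply,
      pc_apply]

theorem dvn_of {l m : List (E → E)} (h1 : ∀ r ∈ l, Par r a b c a b c)
    (h2 : ∀ y : Oct a b c, (∀ r ∈ m, jO r y = y) → norm y = 0 → y = 0) :
    Dvn l m (a : E) b c := by
  refine ⟨h1, fun x k1 k2 => ?_⟩
  obtain ⟨y, rfl⟩ := (oe a b c).surjective x
  rw [h2 y (fun r hr => (oe a b c).injective (k1 r hr))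
    ((Vale.Agent.P011.H900.oe_norm y).trans k2)]
  rfl

theorem aut_of [CharZero E] {r : Gl E} {n : ℕ} (h1 : r ^ n = 1) (h2 : r ≠ 1) : Aut n r :=
  ⟨fun x y => ⟨map_add r x y, map_mul r x y⟩, by rw [← AlgEquiv.coe_pow, h1]; rfl,
    fun h => h2 (AlgEquiv.ext (congrFun h))⟩

end brg

section dsc

variable {E F : Type} [Field E] [Field F] [CharZero E] [CharZero F] {ι : E →+* F}
  {Γ Γ₁ : Subgroup (Gl F)} {a₀ b₀ c₀ : Eˣ} {a b c : Fˣ} {Φ : Subgroup (Perm (V6 a b c))}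
  {γ r s : Gl F} {γ₀ r₀ s₀ : Gl E} {φ g p q : Perm (V6 a b c)} {f : Perm (Alb a₀ b₀ c₀)}

/-- The field `E` is the field fixed by `Γ₁`. -/
structure Dsc (ι : E →+* F) (Γ Γ₁ : Subgroup (Gl F)) (a₀ b₀ c₀ : Eˣ) (a b c : Fˣ) : Prop where
  rng : ∀ x, x ∈ Set.range ι ↔ Fx Γ₁ x
  mem : ∀ γ : Gl F, (∀ x, γ (ι x) = ι x) → γ ∈ Γ₁
  par : Par ι a₀ b₀ c₀ a b c
  dn : ∀ γ ∈ Γ, ∃ γ₀ : Gl E, ∀ x, γ (ι x) = ι (γ₀ x)

theorem Dsc.fix (h : Dsc ι Γ Γ₁ a₀ b₀ c₀ a b c) (hγ : γ ∈ Γ₁) (x : E) : γ (ι x) = ι x :=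
  (h.rng _).1 ⟨x, rfl⟩ γ hγ

theorem over_pow (hγ : ∀ x, γ (ι x) = ι (γ₀ x)) (n : ℕ) (x : E) :
    (γ ^ n) (ι x) = ι ((γ₀ ^ n) x) := by
  induction n generalizing x with
  | zero => rfl
  | succ n ih => rw [pow_succ, pow_succ]; exact over_mul ih hγ x

theorem Dsc.eq_one (h : Dsc ι Γ Γ₁ a₀ b₀ c₀ a b c) (hγ : ∀ x, γ (ι x) = ι (γ₀ x)) :
    γ₀ = 1 ↔ γ ∈ Γ₁ :=
  ⟨fun h1 => h.mem γ fun x => by rw [hγ, h1]; rfl, fun h1 => over_unique hγ (h.fix h1)⟩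

theorem Dsc.aut (h : Dsc ι Γ Γ₁ a₀ b₀ c₀ a b c) (hγ : ∀ x, γ (ι x) = ι (γ₀ x)) {n : ℕ}
    (h1 : γ ^ n ∈ Γ₁) (h2 : γ ∉ Γ₁) : Aut n γ₀ :=
  aut_of ((h.eq_one (over_pow hγ n)).2 h1) fun h3 => h2 ((h.eq_one hγ).1 h3)

theorem over_fix (hγ : ∀ x, γ (ι x) = ι (γ₀ x)) {x : E} (h : γ (ι x) = ι x) : γ₀ x = x :=
  ι.injective ((hγ x).symm.trans h)

theorem Dsc.par₀ (h : Dsc ι Γ Γ₁ a₀ b₀ c₀ a b c) (hγ : ∀ x, γ (ι x) = ι (γ₀ x))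
    (hP : Par γ a b c a b c) : Par γ₀ a₀ b₀ c₀ a₀ b₀ c₀ :=
  ⟨over_fix hγ (by rw [h.par.1, hP.1]), over_fix hγ (by rw [h.par.2.1, hP.2.1]),
    over_fix hγ (by rw [h.par.2.2, hP.2.2])⟩

theorem jO_over (hγ : ∀ x, γ (ι x) = ι (γ₀ x)) (x : Oct a₀ b₀ c₀) :
    (jO γ (jO ι x : Oct a b c) : Oct a b c) = jO ι (jO γ₀ x : Oct a₀ b₀ c₀) := by
  simp only [jO, jQ, hγ]

theorem jA_over (hγ : ∀ x, γ (ι x) = ι (γ₀ x)) (x : Alb a₀ b₀ c₀) :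
    (jA γ (jA ι x : Alb a b c) : Alb a b c) = jA ι (jA γ₀ x : Alb a₀ b₀ c₀) := by
  simp only [jA, jO_over hγ, hγ]

theorem ph6_over (hγ : ∀ x, γ (ι x) = ι (γ₀ x)) (e : E) (x : Alb a₀ b₀ c₀) :
    ph6 γ (ι e) (jA ι x : Alb a b c) = jA ι (ph6 γ₀ e x) := by
  simp only [ph6, jA, jO_over hγ, hγ, map_mul, map_inv₀, jO_smul]

omit [CharZero E] [CharZero F] in
theorem wt_over {g₀ : Fin 3 → Eˣ} {g : Fin 3 → Fˣ} (hg : ∀ i, ι (g₀ i) = g i)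
    (x : Alb a₀ b₀ c₀) : wt g (jA ι x : Alb a b c) = jA ι (wt g₀ x) := by
  simp only [wt, jA, ← hg, map_mul, map_pow, jO_smul]

omit [CharZero E] in
theorem semi_jA (γ : Gl F) : Semi γ (jA γ : Alb a b c → Alb a b c) := fun t x y => by
  rw [jA_add, jA_smul]

theorem Dsc.jA_fix (h : Dsc ι Γ Γ₁ a₀ b₀ c₀ a b c) (hγ : γ ∈ Γ₁) (x : Alb a₀ b₀ c₀) :
    (jA γ (jA ι x : Alb a b c) : Alb a b c) = jA ι x := jA_over (γ₀ := 1) (h.fix hγ) x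

theorem Dsc.ext (h : Dsc ι Γ Γ₁ a₀ b₀ c₀ a b c) : Ext ι ⊥ Γ₁ where
  down _ hγ := ⟨1, one_mem _, h.fix hγ⟩
  up _ hγ := ⟨1, one_mem _, fun x => by rw [Subgroup.mem_bot.1 hγ]; rfl⟩
  fix y hy := (h.rng y).2 fun γ hγ => hy γ hγ (h.fix hγ)

/-- The fixed vectors are defined over the smaller field. -/
theorem Dsc.range (h : Dsc ι Γ Γ₁ a₀ b₀ c₀ a b c) {y : Alb a b c} (hy : ∀ γ ∈ Γ₁, jA γ y = y) :
    ∃ x : Alb a₀ b₀ c₀, jA ι x = y :=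
  (bc_jA ι).mem_range h.ext fun γ hγ _ _ h1 h2 =>
    ((bc_jA ι).ext h1 (semi_jA γ) (fun x => (h2 x).trans (h.jA_fix hγ x).symm) y).trans (hy γ hγ)

/-- The element `g` is the extension of `f`. -/
def Ov (ι : E →+* F) (g : V6 a b c → V6 a b c) (f : Alb a₀ b₀ c₀ → Alb a₀ b₀ c₀) : Prop :=
  ∀ x, g (jA ι x, 0) = (jA ι (f x), 0)

theorem ext_inl {u v : V6 a b c → V6 a b c} (hu : Semi γ u) (hv : Semi γ v)
    (h : ∀ x : Alb a₀ b₀ c₀, u (jA ι x, 0) = v (jA ι x, 0)) (y : Alb a b c) :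
    u (y, 0) = v (y, 0) :=
  (bc_jA ι).ext (f := fun y => u (y, 0)) (g := fun y => v (y, 0))
    (hu.comp_lin (semi_lin (LinearMap.inl F (Alb a b c) (Alb a b c))))
    (hv.comp_lin (semi_lin (LinearMap.inl F (Alb a b c) (Alb a b c)))) h y

omit [CharZero E] in
theorem s6_ext' {g' : Perm (V6 a b c)} (hg : g ∈ S6 a b c) (hg' : g' ∈ S6 a b c)
    (h : ∀ x, g (x, 0) = g' (x, 0)) : g = g' :=
  (sim6_one.2 (mem_S6.1 hg)).ext_fst (sim6_one.2 (mem_S6.1 hg')) h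

/-- It is enough to check the commutation on the first summand. -/
theorem comm_iff {ε ν₁ ν₂ l} (hφ : Sim6 γ ε ν₁ ν₂ l φ) (hg : g ∈ S6 a b c) (ι : E →+* F)
    (a₀ b₀ c₀ : Eˣ) : φ * g = g * φ ↔
      ∀ x : Alb a₀ b₀ c₀, φ (g (jA ι x, 0)) = g (φ (jA ι x, 0)) := by
  refine ⟨fun h x => congrArg (fun e : Perm (V6 a b c) => e (jA ι x, 0)) h, fun h => ?_⟩
  have h1 := ext_inl (hφ.semi.comp_lin (mem_S6.1 hg).semi) ((mem_S6.1 hg).semi.lin_comp hφ.semi) h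
  have h2 : φ.symm.permCongr g = g := s6_ext' (hφ.symm.conj_S6 hg) hg fun x =>
    φ.symm_apply_eq.2 (h1 x).symm
  conv_lhs => rw [← h2]
  ext1 x
  simp

theorem Ov.lin (h : Ov ι g f) (hP : Par ι a₀ b₀ c₀ a b c) (hg : g ∈ S6 a b c) :
    Semi (id : E → E) f ∧ ∀ x, cub (f x) = cub x := by
  have hs := mem_S6.1 hg
  refine ⟨fun t x y => (bc_jA ι (A' := a) (B' := b) (C' := c)).inj ?_, fun x => ι.injective ?_⟩
  · have h1 := congrArg Prod.fst (hs.semi (ι t) (jA ι x, 0) (jA ι y, 0))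
    rw [Prod.smul_mk, Prod.mk_add_mk, ← jA_smul, ← jA_add, smul_zero, add_zero, h, h, h] at h1
    rw [jA_add, jA_smul]
    exact h1
  · have h1 := hs.c1 (jA ι x, 0)
    rw [h, one_mul] at h1
    rw [← cub_jA hP, ← cub_jA hP]
    exact h1

theorem exists_ov (hP : Par ι a₀ b₀ c₀ a b c) (h1 : Semi (id : E → E) f)
    (h2 : ∀ x, cub (f x) = cub x) : ∃ g ∈ S6 a b c, Ov ι g f := by
  obtain ⟨f', h3, h4⟩ := (bc_jA ι (A' := a) (B' := b) (C' := c)).exists_equiv (bc_jA ι)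
    (γ := 1) (γ' := 1) (φ := f) h1 fun _ => rfl
  obtain ⟨g, h5, h6⟩ := exists_S6 f' h3 ((bc_jA ι).pf_ext (PM.acub (PM.lin (Semi.lin h3)))
    (PM.acub PM.id) fun x => by
      change cub (f' _) = _
      rw [h4, cub_jA hP, cub_jA hP, h2])
  exact ⟨g, h5, fun x => by rw [h6, h4]⟩

omit [CharZero E] in
theorem ne_of_inl {u : Alb a b c → Alb a b c} {l : F} (hs : Semi γ φ)
    (h : (∀ x, φ (x, 0) = (l • u x, 0)) ∨ ∀ x, φ (x, 0) = (0, l • u x)) : l ≠ 0 := by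
  rintro rfl
  obtain ⟨x, hx⟩ := exists_ne (0 : Alb a b c)
  refine hs.ne_zero (inl_ne hx) ?_
  rcases h with h | h <;> rw [h, zero_smul] <;> rfl

/-- Commutation with an inner element. -/
theorem Ov.comm_inl (h : Ov ι g f) (hg : g ∈ S6 a b c) {ε ν₁ ν₂ l₀} (hφ : Sim6 γ ε ν₁ ν₂ l₀ φ)
    {u : Alb a b c → Alb a b c} {u₀ : Alb a₀ b₀ c₀ → Alb a₀ b₀ c₀} {l : F}
    (h1 : ∀ x, φ (x, 0) = (l • u x, 0)) (h2 : ∀ x, u (jA ι x) = jA ι (u₀ x)) :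
    φ * g = g * φ ↔ ∀ x, f (u₀ x) = u₀ (f x) := by
  rw [comm_iff hφ hg ι a₀ b₀ c₀]
  refine forall_congr' fun x => ?_
  rw [h, h1, h1, h2, h2, smul_inl, smul_inl, (semi_one.2 (mem_S6.1 hg).semi).smul, h,
    AlgEquiv.one_apply, (smul_right_injective _ (ne_of_inl hφ.semi (Or.inl h1))).eq_iff,
    Prod.mk.injEq, (bc_jA ι).inj.eq_iff, eq_comm, and_iff_left rfl]

/-- Commutation with an outer element. -/
theorem Ov.comm_inr (h : Ov ι g f) (hP : Par ι a₀ b₀ c₀ a b c) (hg : g ∈ S6 a b c) {ε ν₁ ν₂ l₀}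
    (hφ : Sim6 γ ε ν₁ ν₂ l₀ φ) {u : Alb a b c → Alb a b c} {u₀ : Alb a₀ b₀ c₀ → Alb a₀ b₀ c₀}
    {l : F} (h1 : ∀ x, φ (x, 0) = (0, l • u x)) (h2 : ∀ x, u (jA ι x) = jA ι (u₀ x)) :
    φ * g = g * φ ↔ ∀ x y, tf (f x) (u₀ (f y)) = tf x (u₀ y) := by
  have hs := sim6_one.2 (mem_S6.1 hg)
  have h3 : ∀ x, fs6 g false (jA ι x) = jA ι (f x) := fun x => congrArg Prod.fst (h x)
  have h4 : ∀ x y, tf (jA ι (f x)) (sn6 g false (jA ι y)) = ι (tf x y) := fun x y => by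
    rw [← h3, hs.pr.tf, one_mul, AlgEquiv.one_apply, tf_jA hP]
  rw [comm_iff hφ hg ι a₀ b₀ c₀, forall_comm]
  refine forall_congr' fun y => ?_
  rw [h, h1, h1, h2, h2, smul_inr, smul_inr, hs.semi.smul, hs.inr,
    AlgEquiv.one_apply, (smul_right_injective _ (ne_of_inl hφ.semi (Or.inr h1))).eq_iff,
    Prod.mk.injEq, and_iff_right rfl]
  refine ⟨fun k x => ι.injective (by rw [← h4 x, ← k, tf_jA hP]), fun k => eq_of_tf fun z => ?_⟩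
  refine (bc_jA ι (A := a₀) (B := b₀) (C := c₀)).pf_ext ((PM.const _).atf PM.id)
    ((PM.const _).atf PM.id) (fun x => ?_) z
  obtain ⟨x, rfl⟩ := f.surjective x
  rw [tf_comm, tf_comm (sn6 _ _ _), h4, tf_jA hP, k]

theorem Ov.comm_std (h : Ov ι g f) (hg : g ∈ S6 a b c) (hΦ : Std6 Γ Γ₁ Φ)
    (hD : Dsc ι Γ Γ₁ a₀ b₀ c₀ a b c) (hφ : φ ∈ Φ) (hγ : γ ∈ Γ₁) (hs : Semi γ φ) :
    φ * g = g * φ := by
  obtain ⟨_, _, _, _, h1⟩ := hΦ.dat.sim_of hφ hs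
  obtain ⟨l, h2⟩ := hΦ.std φ hφ γ hγ hs
  exact (h.comm_inl hg h1 h2 (u₀ := id) (hD.jA_fix hγ)).2 fun _ => rfl

theorem Ov.comm_ph (h : Ov ι g f) (hg : g ∈ S6 a b c) (hΦ : Dat6 Γ Φ) (hφ : φ ∈ Φ)
    (hr : ∀ x, r (ι x) = ι (r₀ x)) {e : E} (h1 : ∃ l : F, ∀ x, φ (x, 0) = (l • ph6 r (ι e) x, 0)) :
    φ * g = g * φ ↔ ∀ x, f (ph6 r₀ e x) = ph6 r₀ e (f x) := by
  obtain ⟨_, -, _, _, _, _, h2⟩ := hΦ.sim φ hφ
  obtain ⟨l, h1⟩ := h1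
  exact h.comm_inl hg h2 h1 (ph6_over hr e)

theorem Ov.comm_her (h : Ov ι g f) (hP : Par ι a₀ b₀ c₀ a b c) (hg : g ∈ S6 a b c)
    (hΦ : Dat6 Γ Φ) (hφ : φ ∈ Φ) (hs : ∀ x, s (ι x) = ι (s₀ x)) {w₀ : Fin 3 → Eˣ}
    {w : Fin 3 → Fˣ} (hw : ∀ i, ι (w₀ i) = w i)
    (h1 : ∃ l : F, ∀ x, φ (x, 0) = (0, l • wt w (jA s x))) :
    φ * g = g * φ ↔ ∀ x y, tf (wt w₀ (f x)) (jA s₀ (f y)) = tf (wt w₀ x) (jA s₀ y) := by
  obtain ⟨_, -, _, _, _, _, h2⟩ := hΦ.sim φ hφ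
  obtain ⟨l, h1⟩ := h1
  simp only [tf_wt']
  exact h.comm_inr hP hg h2 h1 (u₀ := fun x => wt w₀ (jA s₀ x)) fun x => by
    rw [jA_over hs, wt_over hw]

omit [CharZero E] in
theorem semi_pow {V : Type} [AddCommGroup V] [Module F V] {p : Perm V} (h : Semi r p) (n : ℕ) :
    Semi (⇑(r ^ n)) ⇑(p ^ n) := by
  induction n with
  | zero => exact semi_id
  | succ n ih => rw [pow_succ, pow_succ]; exact ih.mul h

omit [CharZero E] in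
/-- The group is generated by the elements over `Γ₁` and by two elements. -/
theorem le_of_gen {V : Type} [AddCommGroup V] [Module F V] {Φ K : Subgroup (Perm V)}
    {p q : Perm V} (hΦ : Over Γ Φ) (hp : p ∈ Φ) (hq : q ∈ Φ) (hr : Semi r p) (hs : Semi s q)
    (hg : ∀ γ ∈ Γ, ∃ i j : ℕ, r ^ i * s ^ j * γ ∈ Γ₁)
    (h1 : ∀ φ ∈ Φ, ∀ γ ∈ Γ₁, Semi γ φ → φ ∈ K) (h2 : p ∈ K) (h3 : q ∈ K) : Φ ≤ K := by
  intro φ hφ
  obtain ⟨γ, k1, k2⟩ := hΦ.semi φ hφ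
  obtain ⟨i, j, k3⟩ := hg γ k1
  exact (K.mul_mem_cancel_left (K.mul_mem (K.pow_mem h2 i) (K.pow_mem h3 j))).1 (h1 _
    (Φ.mul_mem (Φ.mul_mem (Φ.pow_mem hp i) (Φ.pow_mem hq j)) hφ) _ k3
    (((semi_pow hr i).mul (semi_pow hs j)).mul k2))

theorem Ov.comm_all (h : Ov ι g f) (hg : g ∈ S6 a b c) (hΦ : Std6 Γ Γ₁ Φ)
    (hD : Dsc ι Γ Γ₁ a₀ b₀ c₀ a b c) (hp : p ∈ Φ) (hq : q ∈ Φ) (hr : Semi r p) (hs : Semi s q)
    (hc : ∀ γ ∈ Γ, ∃ i j : ℕ, r ^ i * s ^ j * γ ∈ Γ₁) :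
    (∀ φ ∈ Φ, φ * g = g * φ) ↔ p * g = g * p ∧ q * g = g * q :=
  ⟨fun k => ⟨k p hp, k q hq⟩, fun k _ hφ => (Subgroup.mem_centralizer_singleton_iff.1
    (le_of_gen hΦ.dat.ov hp hq hr hs hc (fun _ k1 _ k2 k3 =>
      Subgroup.mem_centralizer_singleton_iff.2 (h.comm_std hg hΦ hD k1 k2 k3))
      (Subgroup.mem_centralizer_singleton_iff.2 k.1)
      (Subgroup.mem_centralizer_singleton_iff.2 k.2) hφ))⟩

/-- The descents of the elements of a group. -/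
def Dn (ι : E →+* F) (a₀ b₀ c₀ : Eˣ) (H : Subgroup (Perm (V6 a b c))) :
    Subgroup (Perm (Alb a₀ b₀ c₀)) where
  carrier := {f | ∃ g ∈ H, Ov ι g f}
  mul_mem' := by
    rintro f f' ⟨g, h1, h2⟩ ⟨g', k1, k2⟩
    exact ⟨g * g', H.mul_mem h1 k1, fun x => by rw [Perm.mul_apply, k2, h2, Perm.mul_apply]⟩
  one_mem' := ⟨1, H.one_mem, fun _ => rfl⟩
  inv_mem' := by
    rintro f ⟨g, h1, h2⟩
    exact ⟨g⁻¹, H.inv_mem h1, fun x => by rw [Perm.inv_eq_iff_eq, h2]; simp⟩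

theorem exists_dn (hΦ : Std6 Γ Γ₁ Φ) (hD : Dsc ι Γ Γ₁ a₀ b₀ c₀ a b c)
    (hg : g ∈ Pts (S6 a b c) Φ) (x : Alb a₀ b₀ c₀) :
    ∃ y : Alb a₀ b₀ c₀, g (jA ι x, 0) = (jA ι y, 0) := by
  have hs := sim6_one.2 (mem_S6.1 hg.1)
  obtain ⟨y, hy⟩ := hD.range (y := fs6 g false (jA ι x)) fun γ hγ => by
    obtain ⟨φ, h1, h2⟩ := hΦ.dat.ov.onto γ (hΦ.le hγ)
    obtain ⟨l, h3⟩ := hΦ.std φ h1 γ hγ h2
    have h4 := congrArg (fun e : Perm (V6 a b c) => (e (jA ι x, 0)).1) (hg.2 φ h1)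
    simp only [Perm.mul_apply, h3, hs.inl, hD.jA_fix hγ, hs.pr.s1.smul] at h4
    exact smul_right_injective _ (ne_of_inl h2 (Or.inl h3)) h4
  exact ⟨y, by rw [hy, hs.inl]⟩

theorem dn_equiv (hΦ : Std6 Γ Γ₁ Φ) (hD : Dsc ι Γ Γ₁ a₀ b₀ c₀ a b c) :
    Nonempty (Pts (S6 a b c) Φ ≃* Dn ι a₀ b₀ c₀ (Pts (S6 a b c) Φ)) := by
  have hi := (bc_jA ι (A := a₀) (B := b₀) (C := c₀) (A' := a) (B' := b) (C' := c)).inj
  have hu : ∀ {g g' : Pts (S6 a b c) Φ}, (∀ x : Alb a₀ b₀ c₀, g.1 (jA ι x, 0) = g'.1 (jA ι x, 0)) →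
      g = g' := fun {g g'} h => Subtype.ext (s6_ext' g.2.1 g'.2.1
    (ext_inl (γ := 1) (mem_S6.1 g.2.1).semi (mem_S6.1 g'.2.1).semi h))
  have h1 : ∀ f : Dn ι a₀ b₀ c₀ (Pts (S6 a b c) Φ), ∃ g : Pts (S6 a b c) Φ, Ov ι g.1 f.1 :=
    fun ⟨_, g, h1, h2⟩ => ⟨⟨g, h1⟩, h2⟩
  choose e he using h1
  choose d hd using fun g : Pts (S6 a b c) Φ => exists_dn hΦ hD g.2
  refine ⟨(MulEquiv.ofBijective (MonoidHom.mk' e fun f f' => hu fun x => ?_)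
    ⟨fun f f' h => Subtype.ext (Equiv.ext fun x => hi ?_), fun g => ?_⟩).symm⟩
  · rw [he, Subgroup.coe_mul, Subgroup.coe_mul, Perm.mul_apply, Perm.mul_apply, he, he]
  · exact congrArg Prod.fst ((he f x).symm.trans
      ((congrArg (fun g : Pts (S6 a b c) Φ => g.1 (jA ι x, 0)) h).trans (he f' x)))
  · have h2 : ∀ (g : Pts (S6 a b c) Φ) x, d g (d g⁻¹ x) = x := fun g x =>
      hi (congrArg Prod.fst (by rw [← hd, ← hd]; simp : ((jA ι (d g (d g⁻¹ x)), 0) : V6 a b c) =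
        (jA ι x, 0)))
    exact ⟨⟨⟨d g, d g⁻¹, h2 g⁻¹, h2 g⟩, g.1, g.2, hd g⟩, hu fun x => (he _ x).trans (hd g x).symm⟩

/-- **The model.** -/
theorem simp_model (hΦ : Std6 Γ Γ₁ Φ) (hD : Dsc ι Γ Γ₁ a₀ b₀ c₀ a b c)
    {Q : (Al (a₀ : E) b₀ → Al (a₀ : E) b₀) → Prop}
    (hQ : ∀ f : Perm (Al (a₀ : E) b₀), ∀ g ∈ S6 a b c, Ov ι g ((ae a₀ b₀ c₀).permCongr f) →
      ((∀ φ ∈ Φ, φ * g = g * φ) ↔ Q f))
    (hS : Simp (grp fun f => Cub (c₀ : E) f ∧ Q f)) : Simp (Pts (S6 a b c) Φ) := by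
  obtain ⟨e⟩ := dn_equiv hΦ hD
  refine simp_of_equiv (e.trans (Vale.Agent.P011.H900.gEquiv (ae a₀ b₀ c₀) _ _ fun f =>
    ⟨fun h => ?_, ?_⟩).symm) hS
  · obtain ⟨h1, h2⟩ := (cub_ae f).1 h.1
    obtain ⟨g, h3, h4⟩ := exists_ov hD.par h1 h2
    exact ⟨g, ⟨h3, (hQ f g h3 h4).2 h.2⟩, h4⟩
  · rintro ⟨g, h1, h2⟩
    exact ⟨(cub_ae f).2 (h2.lin hD.par h1.1), (hQ f g h1.1 h2).1 h1.2⟩

end dsc

theorem exists_dsc {F : Type} [Field F] [NumberField F] {Γ Γ₁ : Subgroup (Gl F)} {a b c : Fˣ}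
    {Φ : Subgroup (Perm (V6 a b c))} (h : Std6 Γ Γ₁ Φ) :
    ∃ (E : Type) (_ : Field E) (_ : NumberField E) (ι : E →+* F) (a₀ b₀ c₀ : Eˣ),
      Dsc ι Γ Γ₁ a₀ b₀ c₀ a b c := by
  obtain ⟨E, _, _, ι, _, h1, h2, h3⟩ := ext_fixed h.le fun γ hγ δ hδ => by
    simpa using h.nm γ⁻¹ (Γ.inv_mem hγ) δ hδ
  obtain ⟨a₀, ha⟩ := exists_unit ((h2 _).2 (h.fx.1.mono h.le))
  obtain ⟨b₀, hb⟩ := exists_unit ((h2 _).2 (h.fx.2.1.mono h.le))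
  obtain ⟨c₀, hc⟩ := exists_unit ((h2 _).2 (h.fx.2.2.mono h.le))
  exact ⟨E, inferInstance, inferInstance, ι, a₀, b₀, c₀, h2, h3, ⟨ha, hb, hc⟩,
    fun γ hγ => (h1.down γ hγ).imp fun _ h => h.2⟩

end Vale.Agent.P011N.Cl.MD
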