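import Vale.Agent.P011N.Cl.MD.M4

/-!
The cyclic cubic extension which splits the Tits algebra, and the inner forms.
-/

namespace Vale.Agent.P011N.Cl.MD

open Vale.Agent.P011.MPQ Vale.Agent.P011.D4 Vale.Agent.P011.D4.Oct Vale.Agent.P011.E6 Equiv Module
open Vale.Agent.P011.E6.Alb Vale.Agent.P011N.Cl.EI

section sh

variable {F : Type} [Field F] {t u v : F}

/-- The transformation of order three which permutes the roots. -/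
def sh (x : F) : F := -(1 + x)⁻¹

theorem sh_root (h : u ^ 3 - t * u ^ 2 - (t + 3) * u - 1 = 0) : sh (sh (sh u)) = u ∧
    ∀ v, v ^ 3 - t * v ^ 2 - (t + 3) * v - 1 = 0 → v = u ∨ v = sh u ∨ v = sh (sh u) := by
  have h0 : u ≠ 0 := by
    rintro rfl
    simp at h
  have h1 : 1 + u ≠ 0 := fun h1 => by
    rw [show u = -1 by linear_combination h1] at h
    exact one_ne_zero (α := F) (by linear_combination h)
  have h2 : sh (sh u) = -(1 + u) / u := by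
    rw [sh, sh, show 1 + -(1 + u)⁻¹ = u / (1 + u) by field_simp; ring]
    field_simp
  refine ⟨?_, fun v hv => ?_⟩
  · rw [h2, sh, show 1 + -(1 + u) / u = -u⁻¹ by field_simp; ring, inv_neg, inv_inv, neg_neg]
  · have h3 : (v - u) * ((v - sh u) * (v - sh (sh u))) = 0 := by
      rw [h2, sh]
      field_simp
      linear_combination (u * (1 + u)) * hv - (v * (1 + v)) * h
    simpa only [mul_eq_zero, sub_eq_zero] using h3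

variable [CharZero F] {Γ Δ : Subgroup (Gl F)} {r : Gl F}

theorem map_sh (γ : Gl F) (x : F) : γ (sh x) = sh (γ x) := by
  rw [sh, sh, map_neg, map_inv₀, map_add, map_one]

/-- The group permutes three elements cyclically. -/
structure Cyc (Γ : Subgroup (Gl F)) (r : Gl F) (u : F) : Prop where
  mem : r ∈ Γ
  map : r u = sh u
  ne : r u ≠ u
  three : sh (sh (sh u)) = u
  orb : ∀ γ ∈ Γ, γ u = u ∨ γ u = sh u ∨ γ u = sh (sh u)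

theorem Cyc.mono (h : Cyc Γ r u) (hle : Δ ≤ Γ) (hr : r ∈ Δ) : Cyc Δ r u :=
  ⟨hr, h.map, h.ne, h.three, fun γ hγ => h.orb γ (hle hγ)⟩

theorem Cyc.nm (h : Cyc Γ r u) : ∀ γ ∈ Γ, ∀ δ ∈ stb Γ u, γ * δ * γ⁻¹ ∈ stb Γ u := by
  refine fun γ hγ δ hδ => ⟨Γ.mul_mem (Γ.mul_mem hγ hδ.1) (Γ.inv_mem hγ), ?_⟩
  have h1 : δ (γ⁻¹ u) = γ⁻¹ u := by
    rcases h.orb _ (Γ.inv_mem hγ) with h1 | h1 | h1 <;>
      simp only [h1, map_sh, (mem_stb.1 hδ).2]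
  exact (congrArg γ h1).trans (γ.apply_symm_apply u)

theorem Cyc.cube (h : Cyc Γ r u) : r ^ 3 ∈ stb Γ u :=
  mem_stb.2 ⟨Γ.pow_mem h.mem 3, by simp only [pow_three, AlgEquiv.mul_apply, h.map, map_sh, h.three]⟩

theorem Cyc.cos (h : Cyc Γ r u) : ∀ γ ∈ Γ, γ ∈ stb Γ u ∨ r⁻¹ * γ ∈ stb Γ u ∨ r * γ ∈ stb Γ u :=
  fun γ hγ => (h.orb γ hγ).imp (fun h1 => ⟨hγ, h1⟩) (Or.imp
    (fun h1 => mem_stb.2 ⟨Γ.mul_mem (Γ.inv_mem h.mem) hγ, by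
      rw [AlgEquiv.mul_apply, h1, ← h.map]
      exact r.symm_apply_apply u⟩)
    fun h1 => mem_stb.2 ⟨Γ.mul_mem h.mem hγ, by
      simp only [AlgEquiv.mul_apply, h1, map_sh, h.map, h.three]⟩)

theorem Cyc.not_mem (h : Cyc Γ r u) : r ∉ stb Γ u := fun h1 => h.ne h1.2

end sh

variable {F : Type} [Field F] [NumberField F] {Γ Γ₀ : Subgroup (Gl F)}

theorem exists_root (Γ : Subgroup (Gl F)) {t : F} (ht : Fx Γ t)
    (h0 : ∀ x : F, x ^ 3 - t * x ^ 2 - (t + 3) * x - 1 ≠ 0) :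
    ∃ (F' : Type) (_ : Field F') (_ : NumberField F') (ι : F →+* F') (Γ' : Subgroup (Gl F'))
      (r : Gl F') (u : F'), Ext ι Γ Γ' ∧ u ^ 3 - ι t * u ^ 2 - (ι t + 3) * u - 1 = 0 ∧
      (∀ x, r (ι x) = ι x) ∧ Cyc Γ' r u := by
  obtain ⟨F', _, _, ι, Γ', hE, h1⟩ := extStmt F Γ (Cubic.toPoly ⟨1, -t, -(t + 3), -1⟩)
  obtain ⟨u, hu⟩ := h1.exists_eval_eq_zero (by
    rw [Polynomial.degree_map, Cubic.degree_of_a_ne_zero one_ne_zero]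
    decide)
  have h2 : u ^ 3 - ι t * u ^ 2 - (ι t + 3) * u - 1 = 0 := by
    simp [Cubic.toPoly, map_ofNat] at hu
    linear_combination hu
  obtain ⟨h3, h4⟩ := sh_root h2
  have h5 : ∀ γ ∈ Γ', γ u = u ∨ γ u = sh u ∨ γ u = sh (sh u) := fun γ hγ => h4 _ (by
    simpa [hE.fx ht γ hγ, map_ofNat] using congrArg γ h2)
  obtain ⟨r, h6, h7, h8⟩ : ∃ r ∈ Γ', (∀ x, r (ι x) = ι x) ∧ r u ≠ u := by
    by_contra hcon
    push Not at hcon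
    obtain ⟨x, rfl⟩ := hE.fix u hcon
    exact h0 x (ι.injective (by simpa [map_ofNat] using h2))
  rcases h5 r h6 with h9 | h9 | h9
  · exact absurd h9 h8
  · exact ⟨F', inferInstance, inferInstance, ι, Γ', r, u, hE, h2, h7, h6, h9, h8, h3, h5⟩
  · have h10 : (r * r) u = sh u := by simp only [AlgEquiv.mul_apply, h9, map_sh, h3]
    exact ⟨F', inferInstance, inferInstance, ι, Γ', r * r, u, hE, h2,
      fun x => by rw [AlgEquiv.mul_apply, h7, h7], Γ'.mul_mem h6 h6, h10,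
      fun h => h8 (by rw [h9, ← h10, h, ← h10, h]), h3, h5⟩

/-- **The cubic extension**: the inner elements which fix `u` have a common stable line. -/
theorem exists_cyc (hK : K3Stmt) (hle : Γ₀ ≤ Γ) (hidx : Γ₀.relIndex Γ ≤ 2)
    {Φ : Subgroup (Perm (V6 (1 : Fˣ) 1 1))} (h : Dat6 Γ Φ)
    (hi : ∀ φ ∈ Φ, ∀ γ ∈ Γ₀, Semi γ φ → ∀ x, (φ (x, 0)).2 = 0) :
    ∃ (F' : Type) (_ : Field F') (_ : NumberField F') (ι : F →+* F') (Γ' : Subgroup (Gl F'))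
      (Φ' : Subgroup (Perm (V6 (1 : F'ˣ) 1 1))) (r : Gl F') (u : F') (y : Alb (1 : F'ˣ) 1 1),
      Ext ι Γ Γ' ∧ Dat6 Γ' Φ' ∧ Lifts ι (j6 ι) Γ' Φ (Z6 1 1 1) Φ' ∧ (∀ x, r (ι x) = ι x) ∧
      Cyc Γ' r u ∧ y ≠ 0 ∧ ∀ φ ∈ Φ', ∀ γ ∈ stb (ovr ι Γ' Γ₀) u, Semi γ φ →
        ∃ c : F', φ (y, 0) = c • (y, 0) := by
  have h1 : ∀ φ ∈ Φ, ∀ γ ∈ Γ₀, Semi γ φ → ∃ ν₁ ν₂ l, Sim6 γ false ν₁ ν₂ l φ := by
    intro φ k1 γ k2 k3
    obtain ⟨ε, _, _, _, k4⟩ := h.sim_of k1 k3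
    obtain rfl := k4.inner_iff.1 (hi φ k1 γ k2 k3)
    exact ⟨_, _, _, k4⟩
  have h2 : ∀ φ ∈ Φ, ∀ γ ∈ Γ₀, Semi γ φ →
      ∃ ψ ∈ Dn (RingHom.id F) 1 1 1 (res Φ Γ₀), ⇑ψ = fs6 φ false := fun φ k1 γ k2 k3 => by
    obtain ⟨_, _, _, k4⟩ := h1 φ k1 γ k2 k3
    exact ⟨Equiv.ofBijective _ k4.pr.b1, ⟨φ, ⟨k1, γ, k2, k3⟩, k4.inl⟩, rfl⟩
  have h3 : ∀ ψ ∈ Dn (RingHom.id F) 1 1 1 (res Φ Γ₀), ∃ φ ∈ Φ, ∃ γ ∈ Γ₀, ∃ ν₁ ν₂ l,
      Sim6 γ false ν₁ ν₂ l φ ∧ ⇑ψ = fs6 φ false := by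
    rintro ψ ⟨φ, ⟨k1, γ, k2, k3⟩, k4⟩
    obtain ⟨_, _, _, k5⟩ := h1 φ k1 γ k2 k3
    exact ⟨φ, k1, γ, k2, _, _, _, k5, funext fun x => (congrArg Prod.fst (k4 x)).symm⟩
  obtain ⟨t, t1, t2, t3⟩ := hK F Γ Γ₀ hle hidx _ (Dn (RingHom.id F) 1 1 1 (res Φ Γ₀))
    ⟨fun ψ hψ => by
      obtain ⟨φ, -, γ, k2, _, _, _, k3, k4⟩ := h3 ψ hψ
      exact ⟨γ, k2, k4 ▸ k3.pr.s1⟩, fun γ hγ => by
      obtain ⟨φ, k1, k2⟩ := h.ov.onto γ (hle hγ)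
      obtain ⟨_, _, _, k3⟩ := h1 φ k1 γ hγ k2
      obtain ⟨ψ, k4, k5⟩ := h2 φ k1 γ hγ k2
      exact ⟨ψ, k4, k5 ▸ k3.pr.s1⟩⟩
    (fun ψ hψ k0 => by
      obtain ⟨φ, k1, γ, -, _, _, _, k3, k4⟩ := h3 ψ hψ
      obtain rfl : γ = 1 := Semi.unique (e := ψ) (k4 ▸ k3.pr.s1) (semi_one.2 k0)
      obtain ⟨l, _, hl⟩ := mem_Z6.1 (h.lin φ k1 k3.semi)
      exact ⟨l, fun x => by rw [k4, fs6, hl]; rfl⟩)
    ((crossL 1 1 1).compr₂ (tfL 1 1 1)) (fun h0 => by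
      have k1 : tf (cross (e1 : Alb (1 : Fˣ) 1 1) e2) e3 = 0 :=
        congrArg (fun θ : _ →ₗ[F] _ →ₗ[F] _ →ₗ[F] F => θ e1 e2 e3) h0
      simp [tf, cross, e1, e2, e3] at k1)
    fun ψ hψ γ _ k0 => by
      obtain ⟨φ, -, δ, -, ν, _, _, k3, k4⟩ := h3 ψ hψ
      obtain rfl : γ = δ := Semi.unique (e := ψ) k0 (k4 ▸ k3.pr.s1)
      refine ⟨ν, fun x y z => ?_⟩
      change tf (cross _ _) _ = ν * γ (tf (cross x y) z)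
      rw [tf_cross, tf_cross, k4, k3.pr.tri]
  obtain ⟨F', _, _, ι, Γ', r, u, hE, h4, h5, h6⟩ := exists_root Γ t1 t2
  obtain ⟨Φ', h', hL, -⟩ := h.exists_lift hE (par_one (ι := ι))
  obtain ⟨y, y0, hy⟩ := t3 F' ι _ _ (jA ι) (hE.sub hle) (bc_jA ι (A' := 1) (B' := 1) (C' := 1)) u h4
  refine ⟨F', inferInstance, inferInstance, ι, Γ', Φ', r, u, y, hE, h', hL, h5, h6, y0, ?_⟩
  rintro φ' k1 γ' ⟨⟨k2, γ, k3, k4⟩, k5⟩ k6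
  obtain ⟨-, φ, k7, z, k8, k9⟩ := hL.down φ' k1
  have k10 : ∀ x, (z⁻¹ * φ') (j6 ι x) = j6 ι (φ x) := fun x => by simp [k9]
  have k11 : Semi γ' ⇑(z⁻¹ * φ') := (semi_Z6 ((Z6 1 1 1).inv_mem k8)).lin_comp k6
  obtain ⟨δ, -, k12⟩ := h.ov.semi φ k7
  obtain rfl : γ = δ := over_unique k4 ((bc_j6 ι).over (bc_j6 ι) k12 k11 k10)
  obtain ⟨_, _, _, k13⟩ := h1 φ k7 γ k3 k12
  have k14 := k13.up par_one par_one k11 k4 k10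
  obtain ⟨ψ, k15, k16⟩ := h2 φ k7 γ k3 k12
  obtain ⟨c, hc⟩ := hy (Equiv.ofBijective _ k14.pr.b1) γ' ⟨k2, γ, k3, k4⟩ k5 k14.pr.s1
    ⟨ψ, k15, fun x => by
      have k17 := congrArg Prod.fst (k10 (x, 0))
      rw [j6, jA_zero] at k17
      rw [k16]
      exact k17⟩
  obtain ⟨l, _, hl⟩ := mem_Z6.1 k8
  refine ⟨l * c, ?_⟩
  rw [← mul_inv_cancel_left z φ', Perm.mul_apply, k14.inl, hl, smul_zero, mul_smul, ← smul_inl,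
    ← smul_inl, ← hc]
  rfl

/-- **The inner forms.** -/
theorem thm6I (hK : K3Stmt) (hEI : EIStmt) (hM : MD4Stmt) : Thm6I := by
  intro F _ _ Γ Φ h hi hA
  obtain ⟨F', _, _, ι, Γ', Φ', r, u, y, hE, h', hL, -, hC, y0, hy⟩ := exists_cyc hK (le_refl Γ)
    (by simp) h fun φ hφ _ _ _ => hi φ hφ
  obtain ⟨a, b, c, ha, hb, hc, ψ, ⟨_, _, _, h1⟩, h2, h3⟩ := hEI F' Γ' (stb Γ' u) Φ' h'
    ((hL.inner_iff h h' hE par_one).2 hi) stb_le ⟨y, y0, fun φ hφ γ hγ =>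
      hy φ hφ γ ⟨⟨hγ.1, hE.down γ hγ.1⟩, hγ.2⟩⟩ r hC.mem (fun γ => hC.nm r hC.mem γ) hC.cube hC.cos
  obtain ⟨e, h4, h5, h6⟩ := h3 hC.not_mem
  have h7 := (hL.uiso6 hE par_one h.ov).trans (uiso_tr6 h1 Φ').symm
  refine h7.simp (hM F' Γ' (stb Γ' u) a b c _ ⟨h'.tr h1, ⟨ha, hb, hc⟩, stb_le, hC.nm,
    fun φ hφ γ hγ hs => ?_⟩ r hC.mem hC.not_mem hC.cube hC.cos e h4 h5 (fun φ hφ hs => ?_)
    (h7.ani hA))
  · obtain ⟨l, hl⟩ := h2 _ hφ γ hγ ((semi_congr h1.semi).2 hs)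
    exact ⟨l, fun x => ψ.injective (by simpa using hl x)⟩
  · obtain ⟨l, hl⟩ := h6 _ hφ ((semi_congr h1.semi).2 hs)
    exact ⟨l, fun x => ψ.injective (by simpa using hl x)⟩

end Vale.Agent.P011N.Cl.MD
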