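import Vale.Agent.P011N.Cl.MD.Base

/-!
The models: the octonions of an anisotropic group form a division algebra.
-/

namespace Vale.Agent.P011N.Cl.MD

open Vale.Agent.P011.MPQ Vale.Agent.P011.D4 Vale.Agent.P011.D4.Oct Vale.Agent.P011.E6 Equiv Module
open Vale.Agent.P011.E6.Alb Vale.Agent.P011N.Cl.EI Vale.Agent.P011.H327.Star
open Vale.Agent.P011.H900 (Dvn)

section der

variable {F : Type} [Field F] {a b c β κ : Fˣ}

/-- A nonzero derivation of square zero. -/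
structure IsD (D : End F (Oct a b c)) : Prop where
  ne : D ≠ 0
  sq : ∀ x, D (D x) = 0
  skew : ∀ x y, bil (D x) y + bil x (D y) = 0
  der : ∀ x y, D (x * y) = D x * y + x * D y

/-- The derivation of the split octonions. -/
def d0 (β κ : Fˣ) : End F (Oct 1 β κ) where
  toFun x := ⟨0, ⟨0, 0, 1, 1⟩ * x.snd⟩
  map_add' x y := by ext1 <;> simp [mul_add]
  map_smul' t x := by ext1 <;> simp

theorem d0_apply (x : Oct (1 : Fˣ) β κ) : d0 β κ x = ⟨0, ⟨0, 0, 1, 1⟩ * x.snd⟩ := rfl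

theorem isD_d0 : IsD (d0 β κ) where
  ne h := by simpa [d0_apply] using congrArg (fun D : End F (Oct 1 β κ) => (D ⟨0, 1⟩).snd.imJ) h
  sq x := by apply ext8 <;> simp [d0_apply] <;> ring
  skew x y := by
    simp [d0_apply, bil_eq]
    ring
  der x y := by apply ext8 <;> simp [d0_apply] <;> ring

theorem IsD.conj {D : End F (Oct 1 β κ)} (h : IsD D) (E : Oct 1 β κ ≃ₗ[F] Oct a b c)
    (h1 : ∀ x y, E (x * y) = E x * E y) (h2 : ∀ x, norm (E x) = norm x) : IsD (E.conj D) := by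
  have h3 : ∀ x, E.conj D (E x) = E (D x) := fun x => by simp
  refine ⟨fun h4 => h.ne (E.conj.map_eq_zero_iff.1 h4), fun x => ?_, fun x y => ?_, fun x y => ?_⟩
  · obtain ⟨x, rfl⟩ := E.surjective x
    rw [h3, h3, h.sq, map_zero]
  · obtain ⟨x, rfl⟩ := E.surjective x
    obtain ⟨y, rfl⟩ := E.surjective y
    simpa only [h3, bil, ← map_add, h2] using h.skew x y
  · obtain ⟨x, rfl⟩ := E.surjective x
    obtain ⟨y, rfl⟩ := E.surjective y
    rw [← h1, h3, h3, h3, h.der, map_add, h1, h1]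

/-- The derivation of the hermitian matrices. -/
def oD (D : End F (Oct a b c)) : End F (Alb a b c) where
  toFun x := ⟨0, 0, 0, D x.x1, D x.x2, D x.x3⟩
  map_add' x y := by ext1 <;> simp
  map_smul' t x := by ext1 <;> simp

theorem oD_apply (D : End F (Oct a b c)) (x : Alb a b c) :
    oD D x = ⟨0, 0, 0, D x.x1, D x.x2, D x.x3⟩ := rfl

variable [CharZero F] {D : End F (Oct a b c)}

theorem IsD.mem (h : IsD D) : (oD D).prodMap (oD D) ∈ s6 a b c := by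
  refine prodMap_mem_s6 (fun x => ?_) fun x y => ?_
  · have h1 : D 1 = 0 := by simpa using h.der 1 1
    have h2 : ∀ u, bil u (D u) = 0 := fun u => by
      linear_combination (1 / 2 : F) * h.skew u u + (1 / 2 : F) * bil_comm u (D u)
    have h3 := h.skew (x.x1 * x.x2 * x.x3) 1
    rw [h1, h.der, h.der, add_mul, bil_add_left, bil_add_left, bil_zero_right, add_zero] at h3
    simp only [tf, adj, oD_apply, mul_zero, bil_sub_left, bil_smul_left, h2, sub_zero, zero_add]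
    rw [tri1, tri2, tri3, h3]
  · simp only [tf, oD_apply]
    linear_combination h.skew x.x1 y.x1 + h.skew x.x2 y.x2 + h.skew x.x3 y.x3

theorem comm_s6 {γ : Gl F} {ε ν₁ ν₂ l} {φ : Perm (V6 a b c)} (h : Sim6 γ ε ν₁ ν₂ l φ)
    {Y : End F (V6 a b c)} (hY : Y ∈ s6 a b c) (h1 : ∀ x, φ (Y (x, 0)) = Y (φ (x, 0)))
    (v : V6 a b c) : φ (Y v) = Y (φ v) := by
  obtain ⟨Z, h2, h3⟩ := h.symm.conj_s6 hY
  obtain rfl : Z = Y := s6_ext h2 hY (LinearMap.ext fun x => by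
    have h4 := h3 (φ (x, 0))
    rw [← h1, φ.symm_apply_apply, φ.symm_apply_apply] at h4
    rw [bk1_apply, bk1_apply, h4])
  rw [← φ.symm_apply_apply v, ← h3, φ.apply_symm_apply, φ.apply_symm_apply]

/-- The bijections which commute with an operator. -/
def Cm {V : Type} (Y : V → V) : Subgroup (Perm V) where
  carrier := {φ | ∀ v, φ (Y v) = Y (φ v)}
  mul_mem' h h' v := by rw [Perm.mul_apply, h', h, Perm.mul_apply]
  one_mem' _ := rfl
  inv_mem' h v := by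
    rw [Perm.inv_eq_iff_eq, h]
    simp

/-- The shape of the elements which are not standard. -/
def Mdl (γ : Gl F) (φ : V6 a b c → V6 a b c) : Prop :=
  ∃ l : F, (∃ e, ∀ x, φ (x, 0) = (l • ph6 γ e x, 0)) ∨
    ∃ g, ∀ x, φ (x, 0) = (0, l • wt g (jA γ x))

end der

variable {E F : Type} [Field E] [Field F] [NumberField E] [NumberField F] {ι : E →+* F}
  {Γ Γ₁ : Subgroup (Gl F)} {a₀ b₀ c₀ : Eˣ} {a b c : Fˣ} {Φ : Subgroup (Perm (V6 a b c))}
  {r s : Gl F} {r₀ s₀ : Gl E} {p q : Perm (V6 a b c)}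

theorem exists_der (ha : Fx Γ (a : F)) (hb : Fx Γ (b : F)) (hc : Fx Γ (c : F)) {y : Oct a b c}
    (h0 : y ≠ 0) (h1 : ∀ γ ∈ Γ, jO γ y = y) (h2 : norm y = 0) :
    ∃ D : End F (Oct a b c), IsD D ∧ ∀ γ ∈ Γ, ∀ x, jO γ (D x) = D (jO γ x) := by
  have hA := oact_jO ha hb hc
  obtain ⟨z, h3, h4⟩ : ∃ z : Oct a b c, (∀ γ ∈ Γ, jO γ z = z) ∧ bil y z ≠ 0 := by
    by_contra hcon
    push Not at hcon
    exact h0 (eq_zero_of_bil fun z => (Submodule.span_le (p := LinearMap.ker (bilL a b c y))).2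
      hcon (hA.span.ge Submodule.mem_top))
  have h5 : ∀ γ ∈ Γ, jO γ ((2 / bil y z) • (y * star z) - 1) = (2 / bil y z) • (y * star z) - 1 :=
    fun γ hγ => by
      rw [jO_sub, jO_smul, jO_one, jO_mul (par_of_fx ha hb hc hγ), jO_star, map_div₀, map_ofNat,
        ← bil_jO (par_of_fx ha hb hc hγ), h1 γ hγ, h3 γ hγ]
  have h6 : bil (y * star z) 1 = bil y z := by rw [bil_mul_left', one_mul, star_star]
  obtain ⟨β, κ, j, l, k1, -, k3, k4, k5⟩ := hA.exists_trip (α := 1) h5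
    (by
      rw [bil_sub_left, bil_smul_left, h6, bil_self, Oct.norm_one]
      field_simp
      ring)
    (by
      rw [norm_sub, Oct.norm_smul, Oct.norm_mul, h2, bil_smul_left, h6, Oct.norm_one]
      field_simp
      simp
      ring)
  obtain ⟨e, k6, k7, -, k8⟩ := exists_emb k5.trip
  refine ⟨e.conj (d0 β κ), isD_d0.conj e k7 k8, fun γ hγ x => ?_⟩
  obtain ⟨x, rfl⟩ := e.surjective x
  have k9 : ∀ x, jO γ (e x) = e (jO γ x) := fun x => by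
    rw [k6, k6]
    exact hA.map_emb h5 k3 k4 hγ x
  simp only [k9, LinearEquiv.conj_apply_apply, LinearEquiv.symm_apply_apply]
  congr 1
  apply ext8 <;> simp [d0_apply, jO, jQ, k1 γ hγ]

/-- The octonions over the ground field form a division algebra. -/
theorem div_of_ani (hΦ : Std6 Γ Γ₁ Φ) (hp : p ∈ Φ) (hq : q ∈ Φ) (hr : Semi r p) (hs : Semi s q)
    (hg : ∀ γ ∈ Γ, ∃ i j : ℕ, r ^ i * s ^ j * γ ∈ Γ₁) (mp : Mdl r p) (mq : Mdl s q)
    (hA : Ani (Pts (S6 a b c) Φ)) (y : Oct a b c) (h1 : ∀ γ ∈ Γ, jO γ y = y) (h2 : norm y = 0) :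
    y = 0 := by
  by_contra h0
  obtain ⟨D, h3, h4⟩ := exists_der hΦ.fx.1 hΦ.fx.2.1 hΦ.fx.2.2 h0 h1 h2
  have h5 : ∀ φ ∈ Φ, (∀ x, φ (oD D x, 0) = (oD D).prodMap (oD D) (φ (x, 0))) →
      φ ∈ Cm ((oD D).prodMap (oD D)) := fun φ hφ h => by
    obtain ⟨_, -, _, _, _, _, h5⟩ := hΦ.dat.sim φ hφ
    exact comm_s6 h5 h3.mem fun x => by simpa using h x
  have h6 : ∀ γ ∈ Γ, ∀ x, jA γ (oD D x) = oD D (jA γ x) := fun γ hγ x => by
    simp only [oD_apply, jA, map_zero, h4 γ hγ]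
  have h7 : ∀ φ ∈ Φ, ∀ γ : Gl F, Semi γ φ → Mdl γ φ → φ ∈ Cm ((oD D).prodMap (oD D)) := by
    rintro φ hφ γ hγ ⟨l, ⟨e, h⟩ | ⟨g, h⟩⟩ <;> refine h5 φ hφ fun x => ?_
    · rw [h, h, LinearMap.prodMap_apply, map_zero, map_smul]
      simp [oD_apply, ph6, h4 γ (hΦ.dat.ov.mem hφ hγ)]
    · rw [h, h, LinearMap.prodMap_apply, map_zero, map_smul, h6 γ (hΦ.dat.ov.mem hφ hγ)]
      simp [oD_apply, wt]
  refine not_ani_of_nilp hΦ.dat.ov h3.mem (LinearMap.ext fun v => ?_) (fun h => h3.ne ?_)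
    (fun φ hφ => le_of_gen hΦ.dat.ov hp hq hr hs hg (fun φ k1 γ k2 k3 => h5 φ k1 fun x => ?_)
      (h7 p hp r hr mp) (h7 q hq s hs mq) hφ) hA
  · simp [pow_succ, oD_apply, h3.sq]
    rfl
  · exact LinearMap.ext fun u =>
      congrArg (fun Y : End F (V6 a b c) => (Y (⟨0, 0, 0, u, 0, 0⟩, 0)).1.x1) h
  · obtain ⟨l, h⟩ := hΦ.std φ k1 γ k2 k3
    simp [h, h6 γ (hΦ.le k2)]

omit [NumberField E] in
/-- The elements which are fixed by the generators. -/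
theorem fix_of_gen {V : Type} {u : Gl F → V → V} (hu : ∀ γ δ x, u (γ * δ) x = u γ (u δ x))
    (hu1 : ∀ x, u 1 x = x) (hg : ∀ γ ∈ Γ, ∃ i j : ℕ, r ^ i * s ^ j * γ ∈ Γ₁) {y : V}
    (h1 : ∀ γ ∈ Γ₁, u γ y = y) (h2 : u r y = y) (h3 : u s y = y) : ∀ γ ∈ Γ, u γ y = y := by
  let K : Subgroup (Gl F) :=
    { carrier := {γ | u γ y = y}
      mul_mem' := fun {γ δ} h h' => (hu γ δ y).trans ((congrArg (u γ) h').trans h)
      one_mem' := hu1 y
      inv_mem' := fun {γ} h => (congrArg (u γ⁻¹) h.symm).trans (by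
        rw [← hu, inv_mul_cancel, hu1]) }
  intro γ hγ
  obtain ⟨i, j, h4⟩ := hg γ hγ
  exact (K.mul_mem_cancel_left (K.mul_mem (K.pow_mem h2 i) (K.pow_mem h3 j))).1 (h1 _ h4)

theorem dvn_of_ani (hΦ : Std6 Γ Γ₁ Φ) (hD : Dsc ι Γ Γ₁ a₀ b₀ c₀ a b c) (hp : p ∈ Φ) (hq : q ∈ Φ)
    (hr : Semi r p) (hs : Semi s q) (hg : ∀ γ ∈ Γ, ∃ i j : ℕ, r ^ i * s ^ j * γ ∈ Γ₁)
    (mp : Mdl r p) (mq : Mdl s q) (hA : Ani (Pts (S6 a b c) Φ))
    (hr₀ : ∀ x, r (ι x) = ι (r₀ x)) (hs₀ : ∀ x, s (ι x) = ι (s₀ x)) {l : List (E → E)}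
    (hl : ∀ t, t ∈ l ↔ t = r₀ ∨ t = s₀) : Dvn l l (a₀ : E) b₀ c₀ := by
  have h1 := fun γ hγ => par_of_fx (γ := γ) hΦ.fx.1 hΦ.fx.2.1 hΦ.fx.2.2 hγ
  refine dvn_of (fun t ht => ?_) fun y h2 h3 => (bc_jO ι (A' := a) (B' := b) (C' := c)).inj ?_
  · rcases (hl t).1 ht with rfl | rfl
    exacts [hD.par₀ hr₀ (h1 r (hΦ.dat.ov.mem hp hr)), hD.par₀ hs₀ (h1 s (hΦ.dat.ov.mem hq hs))]
  · rw [jO_zero]
    refine div_of_ani hΦ hp hq hr hs hg mp mq hA _ (fix_of_gen (u := fun γ => jO γ)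
      (fun _ _ _ => rfl) (fun _ => rfl) hg (fun γ hγ => jO_over (γ₀ := 1) (hD.fix hγ) y) ?_ ?_) ?_
    · rw [jO_over hr₀, h2 _ ((hl _).2 (Or.inl rfl))]
    · rw [jO_over hs₀, h2 _ ((hl _).2 (Or.inr rfl))]
    · rw [norm_jO hD.par, h3, map_zero]

end Vale.Agent.P011N.Cl.MD
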