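import Vale.Agent.P011N.Cl.MD.M3A
import Vale.Agent.P011N.Cl.MD.Base

/-!
The outer model with trivial Tits class.
-/

namespace Vale.Agent.P011N.Cl.M3

open Vale.Agent.P011.MPQ Vale.Agent.P011.D4 Vale.Agent.P011.D4.Oct Vale.Agent.P011.E6 Equiv Module
open Vale.Agent.P011.H900 (Al Oc Her Aut re om oc ap her)
open Vale.Agent.P011N.Cl.MD

section pos

variable {E : Type} [Field E] {w : E →+* ℂ} {s : E → E}

theorem re_om {a b : E} (c : E) (x y : Oc a b) : re (om c x (oc y)) =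
    x.1.re * y.1.re - a * (x.1.imI * y.1.imI) - b * (x.1.imJ * y.1.imJ) +
      a * b * (x.1.imK * y.1.imK) - c * (x.2.re * y.2.re - a * (x.2.imI * y.2.imI) -
        b * (x.2.imJ * y.2.imJ) + a * b * (x.2.imK * y.2.imK)) := by
  simp [re, om, oc]
  ring

theorem zero_of {t : ℝ} {z : E} (ht : 0 < t) (h : t * Complex.normSq (w z) = 0) : z = 0 :=
  (map_eq_zero w).1 (Complex.normSq_eq_zero.1 ((mul_eq_zero.1 h).resolve_left ht.ne'))

theorem w_norm (hw : ∀ z, w (s z) = star (w z)) (z : E) :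
    w (z * s z) = (Complex.normSq (w z) : ℝ) := by
  rw [map_mul, hw]
  exact Complex.mul_conj _

theorem oct_pos (hw : ∀ z, w (s z) = star (w z)) {a b c : E} {A B C : ℝ} (ha : w a = A)
    (hb : w b = B) (hc : w c = C) (hA : A < 0) (hB : B < 0) (hC : C < 0) (y : Oc a b) :
    ∃ P : ℝ, w (re (om c y (oc (ap s y)))) = P ∧ 0 ≤ P ∧ (P = 0 → y = 0) := by
  have h1 := neg_pos.2 hA
  have h2 := neg_pos.2 hB
  have h3 := neg_pos.2 hC
  have h4 := mul_pos h1 h2
  have k0 := mul_nonneg one_pos.le (Complex.normSq_nonneg (w y.1.re))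
  have k1 := mul_nonneg h1.le (Complex.normSq_nonneg (w y.1.imI))
  have k2 := mul_nonneg h2.le (Complex.normSq_nonneg (w y.1.imJ))
  have k3 := mul_nonneg h4.le (Complex.normSq_nonneg (w y.1.imK))
  have k4 := mul_nonneg h3.le (Complex.normSq_nonneg (w y.2.re))
  have k5 := mul_nonneg (mul_pos h3 h1).le (Complex.normSq_nonneg (w y.2.imI))
  have k6 := mul_nonneg (mul_pos h3 h2).le (Complex.normSq_nonneg (w y.2.imJ))
  have k7 := mul_nonneg (mul_pos h3 h4).le (Complex.normSq_nonneg (w y.2.imK))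
  refine ⟨1 * Complex.normSq (w y.1.re) + -A * Complex.normSq (w y.1.imI) +
    -B * Complex.normSq (w y.1.imJ) + -A * -B * Complex.normSq (w y.1.imK) +
    -C * Complex.normSq (w y.2.re) + -C * -A * Complex.normSq (w y.2.imI) +
    -C * -B * Complex.normSq (w y.2.imJ) + -C * (-A * -B) * Complex.normSq (w y.2.imK), ?_,
    by linarith, fun h => ?_⟩
  · rw [re_om]
    simp only [ap, map_sub, map_add, map_mul w a, map_mul w b, map_mul w c, map_mul w (a * b),
      w_norm hw, ha, hb, hc]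
    push_cast
    ring
  · exact Prod.ext (QuaternionAlgebra.ext (zero_of one_pos (by linarith))
      (zero_of h1 (by linarith)) (zero_of h2 (by linarith)) (zero_of h4 (by linarith)))
      (QuaternionAlgebra.ext (zero_of h3 (by linarith)) (zero_of (mul_pos h3 h1) (by linarith))
        (zero_of (mul_pos h3 h2) (by linarith)) (zero_of (mul_pos h3 h4) (by linarith)))

theorem her_pos (hw : ∀ z, w (s z) = star (w z)) {a b c : E} {A B C : ℝ} (ha : w a = A)
    (hb : w b = B) (hc : w c = C) (hA : A < 0) (hB : B < 0) (hC : C < 0) {g : Fin 3 → E}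
    {G : Fin 3 → ℝ} (hg : ∀ i, w (g i) = G i) (h1 : 0 < G 0 * G 1) (h2 : 0 < G 1 * G 2)
    (x : Al a b) (hx : her c s g x x = 0) : x = 0 := by
  choose P hP k1 k2 using fun i => oct_pos hw ha hb hc hA hB hC (x.2 i)
  have g1 : G 1 ≠ 0 := right_ne_zero_of_mul h1.ne'
  have h3 : 0 < G 2 * G 0 := by
    refine (mul_pos_iff_of_pos_right (mul_self_pos.2 g1)).1 ?_
    have := mul_pos h1 h2
    linarith
  have h4 : ∀ i, 0 < G (i + 1) * G (i + 2) := fun i => by
    fin_cases i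
    exacts [h2, h3, h1]
  have h5 : ∀ i, 0 < G i ^ 2 := fun i => by
    have h6 := right_ne_zero_of_mul (h4 (i + 1)).ne'
    rw [(by decide : ∀ i : Fin 3, i + 1 + 2 = i) i] at h6
    positivity
  have h6 : ∑ i, (G i ^ 2 * Complex.normSq (w (x.1 i)) + G (i + 1) * G (i + 2) * (2 * P i)) = 0 := by
    have h7 := congrArg w hx
    rw [her, map_sum, map_zero] at h7
    rw [← Complex.ofReal_eq_zero, ← h7, Complex.ofReal_sum]
    refine Finset.sum_congr rfl fun i _ => ?_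
    rw [mul_assoc (g i ^ 2), map_add, map_mul w (g i ^ 2), w_norm hw, map_pow, map_mul, map_mul,
      map_mul, hP, hg, hg, hg, map_ofNat]
    push_cast
    ring
  have h7 := fun i => mul_nonneg (h5 i).le (Complex.normSq_nonneg (w (x.1 i)))
  have h8 := fun i => mul_nonneg (h4 i).le (mul_nonneg zero_le_two (k1 i))
  have h9 := fun i => (Finset.sum_eq_zero_iff_of_nonneg fun i _ => add_nonneg (h7 i) (h8 i)).1 h6 i
    (Finset.mem_univ i)
  refine Prod.ext (funext fun i => zero_of (w := w) (h5 i) (by linarith [h7 i, h8 i, h9 i]))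
    (funext fun i => k2 i ?_)
  have k3 : G (i + 1) * G (i + 2) * (2 * P i) = 0 := by linarith [h7 i, h8 i, h9 i]
  linarith [(mul_eq_zero.1 k3).resolve_left (h4 i).ne']

theorem conj_of {s : E →+* E} (hs : ∀ z, s (s z) = z) (hr : ∀ z, s z = z → (w z).im = 0) {q : E}
    (hq : s q = -q) (h : (w (q ^ 2)).re < 0) (z : E) : w (s z) = star (w z) := by
  have k : ∀ z, s z = z → star (w z) = w z := fun z hz => Complex.conj_eq_iff_im.2 (hr z hz)
  have h1 := hr (q ^ 2) (by rw [map_pow, hq, neg_sq])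
  rw [map_pow, sq] at h h1
  rw [Complex.mul_re] at h
  rw [Complex.mul_im] at h1
  have h2 : (w q).re = 0 := by
    by_contra h2
    have h3 : (w q).im = 0 := by
      apply mul_left_cancel₀ h2
      linarith
    rw [h3] at h
    linarith [mul_self_nonneg (w q).re]
  have h3 : star (w q) = -w q := Complex.ext (by simp [h2]) (by simp)
  have h4 : w q ≠ 0 := fun h0 => by simp [h0] at h
  have h5 := k (z + s z) (by rw [map_add, hs, add_comm])
  have h6 := k (q * (z - s z)) (by rw [map_mul, map_sub, hs, hq]; ring)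
  rw [map_add, star_add] at h5
  rw [map_mul, map_sub, star_mul', star_sub, h3] at h6
  apply mul_left_cancel₀ h4
  linear_combination (-(1 / 2) * w q) * h5 + (1 / 2) * h6

end pos

/-- (MD3) -/
theorem md3Stmt (H : ClE1S Simp) : MD3Stmt := by
  intro F _ _ Γ Γ₁ a b c Φ h s hs hs1 hΓ g hg hφ hw hA
  obtain ⟨E, _, _, ι, a₀, b₀, c₀, hD⟩ := exists_dsc h
  obtain ⟨s₀, hs₀⟩ := hD.dn s hs
  have hA2 : Aut 2 s₀ := hD.aut hs₀ (by rw [sq]; exact (hΓ s hs).resolve_left hs1) hs1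
  choose g₀ hg₀ using fun i => exists_unit ((hD.rng _).2 ((hg i).mono h.le))
  obtain ⟨q, q0, hq⟩ : ∃ q : E, q ≠ 0 ∧ s₀ q = -q := by
    obtain ⟨y, hy⟩ := hA2.exists_ne
    exact ⟨y - s₀ y, sub_ne_zero.2 hy.symm, by rw [map_sub, hA2.two, neg_sub]⟩
  have hdn : ∀ γ ∈ Γ, (∀ x, γ (ι x) = ι x) ∨ ∀ x, γ (ι x) = ι (s₀ x) := fun γ hγ =>
    (hΓ γ hγ).imp hD.fix fun h1 x => s.injective (by
      rw [hs₀ (s₀ x), hA2.two]
      exact hD.fix h1 x)
  have hfx : ∀ x, s₀ x = x → Fx Γ (ι x) := fun x hx γ hγ => by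
    rcases hdn γ hγ with h1 | h1 <;> rw [h1]
    rw [hx]
  have hq1 : s (ι q) = -ι q := by rw [hs₀, hq, map_neg]
  have han : ∀ (α : F) (u : Oct a b c), Fx Γ₁ α → (∀ γ ∈ Γ, jO γ u = u) →
      g 0 / g 1 * (α * s α) = ι q ^ 2 * norm u → α = 0 ∧ u = 0 := fun α u h1 h2 h3 => by
    by_contra h4
    exact not_ani h hs hΓ hs1 hg hφ ((hD.rng _).1 ⟨q, rfl⟩) hq1 ((map_ne_zero ι).2 q0) h1 h2
      (not_and_or.1 h4) h3 hA
  obtain ⟨w, w0, w1, w2, w3, w4, w5⟩ : ∃ w : F →+* ℂ, RlG Γ w ∧ (w a).re < 0 ∧ (w b).re < 0 ∧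
      (w c).re < 0 ∧ (w (ι q ^ 2)).re < 0 ∧ 0 < (w (g 0 * g 1)).re := by
    obtain ⟨k, _, _, j, hj⟩ := exists_fixed Γ
    obtain ⟨a₁, k1⟩ := exists_unit ((hj _).2 h.fx.1)
    obtain ⟨b₁, k2⟩ := exists_unit ((hj _).2 h.fx.2.1)
    obtain ⟨c₁, k3⟩ := exists_unit ((hj _).2 h.fx.2.2)
    obtain ⟨κ, k4⟩ := (hj (ι q ^ 2)).2 (by
      rw [← map_pow]
      exact hfx _ (by rw [map_pow, hq, neg_sq]))
    obtain ⟨g0, k5⟩ := exists_unit ((hj _).2 (hg 0))
    obtain ⟨g1, k6⟩ := exists_unit ((hj _).2 (hg 1))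
    have k7 : ∀ γ ∈ Γ, ∀ x, γ (j x) = j x := fun γ hγ x => (hj _).1 ⟨x, rfl⟩ γ hγ
    by_contra hc
    obtain ⟨t, m, x, y, z, u, k8⟩ := exists_sol a₁ b₁ c₁.ne_zero (κ := κ) (g := g0 / g1)
      (fun h0 => pow_ne_zero 2 ((map_ne_zero ι).2 q0) (by rw [← k4, h0, map_zero]))
      (div_ne_zero g0.ne_zero g1.ne_zero) fun P p1 p2 p3 p4 => by
      obtain ⟨w, p5, p6⟩ := exists_rlG (fun x => (hj x).2) P
      have p7 : P g1 ≠ 0 := (map_ne_zero P).2 g1.ne_zero
      refine lt_of_le_of_ne (not_lt.1 fun p8 => hc ⟨w, p5, by rwa [← k1, p6], by rwa [← k2, p6],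
        by rwa [← k3, p6], by rwa [← k4, p6], ?_⟩)
        ((map_ne_zero P).2 (div_ne_zero g0.ne_zero g1.ne_zero))
      rw [← k5, ← k6, ← map_mul j, p6, Complex.ofReal_re, map_mul]
      rw [map_div₀] at p8
      have := mul_pos p8 (mul_self_pos.2 p7)
      rwa [div_mul_eq_mul_div, mul_div_assoc, mul_div_cancel_right₀ _ p7] at this
    have k9 := (han (j t + ι q) ⟨⟨j x, j y, j z, j u⟩, ⟨j m, 0, 0, 0⟩⟩
      (Fx.add (fun γ hγ => k7 γ (h.le hγ) t) ((hD.rng _).1 ⟨q, rfl⟩))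
      (fun γ hγ => by simp only [jO, jQ, k7 γ hγ, map_zero]) (by
        have e := congrArg j k8
        simp only [map_mul, map_sub, map_add, map_pow, map_div₀, k1, k2, k3, k4, k5, k6] at e
        rw [map_add, k7 s hs, hq1]
        simp only [Oct.norm, nrd]
        linear_combination e)).1
    have e := congrArg s k9
    rw [map_add, k7 s hs, hq1, map_zero] at e
    exact mul_ne_zero two_ne_zero ((map_ne_zero ι).2 q0) (by linear_combination k9 - e)
  have hre : ∀ x, Fx Γ x → w x = ((w x).re : ℝ) := fun x hx =>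
    Complex.ext rfl ((w0 x hx).trans (Complex.ofReal_im _).symm)
  have hmul : ∀ i j, (w (g i * g j)).re = (w (g i)).re * (w (g j)).re := fun i j => by
    rw [map_mul, hre _ (hg i), Complex.re_ofReal_mul, Complex.ofReal_re]
  have w6 := hw w w0 w5
  rw [hmul] at w5 w6
  obtain ⟨ψ, hψ, hψs⟩ := h.dat.ov.onto s hs
  refine simp_model h hD (Q := Her (c₀ : E) s₀ fun i => (g₀ i : E)) (fun f g' k1 k2 => ?_)
    (H E s₀ a₀ b₀ c₀ (fun i => (g₀ i : E)) hA2
      (dvn_of (by simpa using hD.par₀ hs₀ (par h hs)) fun y k1 k2 => ?_)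
      (fun i => over_fix hs₀ (by rw [hg₀, hg i s hs]))
      (her_pos (w := w.comp ι) (conj_of (s := (s₀ : E →+* E)) hA2.two
        (fun z hz => w0 _ (hfx z hz)) hq (by rwa [RingHom.comp_apply, map_pow]))
        ((congrArg w hD.par.1).trans (hre _ h.fx.1))
        ((congrArg w hD.par.2.1).trans (hre _ h.fx.2.1))
        ((congrArg w hD.par.2.2).trans (hre _ h.fx.2.2)) w1 w2 w3
        (fun i => (congrArg w (hg₀ i)).trans (hre _ (hg i))) w5 w6))
  · rw [k2.comm_all k1 h hD hψ hψ hψs hψs fun γ hγ => (hΓ γ hγ).elim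
      (fun h1 => ⟨0, 0, by simpa using h1⟩) fun h1 => ⟨1, 0, by simpa using h1⟩, and_self,
      k2.comm_her hD.par k1 h.dat hψ hs₀ hg₀ (hφ ψ hψ hψs), her_iff_ae]
  · refine (bc_jO ι (A' := a) (B' := b) (C' := c)).inj ((han 0 _ (fun γ _ => map_zero γ)
      (fun γ hγ => ?_) ?_).2.trans (jO_zero ι).symm)
    · rcases hdn γ hγ with h1 | h1
      · exact jO_over (γ₀ := 1) h1 y
      · rw [jO_over h1, k1 s₀ (by simp)]
    · rw [norm_jO hD.par, k2, map_zero ι, zero_mul, mul_zero, mul_zero]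

end Vale.Agent.P011N.Cl.M3
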