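import Vale.Agent.P011N.Cl.JT.Un
import Vale.Agent.P011N.Cl.T.Split
import Vale.Agent.P011N.Cl.RM.WA

/-!
The outer model with trivial Tits class: a unipotent element, and a definite real place.
-/

namespace Vale.Agent.P011N.Cl.M3

open Vale.Agent.P011.MPQ Vale.Agent.P011.D4 Vale.Agent.P011.D4.Oct Vale.Agent.P011.E6 Equiv Module
open Vale.Agent.P011.E6.Alb

section alg

variable {F : Type} [Field F] [CharZero F] {a b c : Fˣ}

theorem vop_anti {x y : Alb a b c} (h : cross x y = 0) (e : Alb a b c) :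
    vop y (cross x e) = -vop x (cross y e) := by
  refine LinearMap.ext fun v => eq_of_tf fun w => ?_
  have h1 := congrArg (fun z => tf z v) (cross_cross_pol x y e w)
  simp only [h, cross_zero_left, cross_zero_right, smul_zero, add_zero, tf_add_left,
    tf_smul_left] at h1
  have h2 : ∀ x z : Alb a b c, tf (cross x (cross z w)) v = tf (cross z (cross x v)) w :=
    fun x z => by rw [tf_cross_comm, ← tf_cross, cross_comm]
  rw [← tf_cross x y, h, tf_zero_left, zero_mul, add_zero, h2, h2, cross_comm e x] at h1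
  rw [LinearMap.neg_apply, vop_apply, vop_apply, tf_neg_left, tf_sub_left, tf_sub_left,
    tf_smul_left, tf_smul_left]
  linear_combination -h1

theorem VopL_anti {x y : Alb a b c} (h : cross x y = 0) (e : Alb a b c) :
    VopL y (cross x e) = -VopL x (cross y e) := by
  have h1 := vop_anti h e
  have h2 : vop (cross x e) y = -vop (cross y e) x := LinearMap.ext fun v => eq_of_tf fun w => by
    rw [tf_vop, h1, LinearMap.neg_apply, LinearMap.neg_apply, tf_neg_left, tf_neg_right, tf_vop]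
  refine LinearMap.ext fun v => ?_
  rw [LinearMap.neg_apply, VopL_apply', VopL_apply', h1, h2]
  rfl

omit [CharZero F] in
theorem VopL_smul (s t : F) (x ξ : Alb a b c) : VopL (s • x) (t • ξ) = (s * t) • VopL x ξ := by
  rw [← VopB_apply, ← VopB_apply, map_smul, map_smul, LinearMap.smul_apply, smul_smul, mul_comm]

theorem jA_surj (γ : Gl F) : Function.Surjective (jA γ : Alb a b c → Alb a b c) := fun x =>
  ⟨jA γ.symm x, by
    ext1 <;> first
      | exact γ.apply_symm_apply _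
      | exact (jO_congr γ.apply_symm_apply _).trans (jO_id _)⟩

end alg

section unip

variable {F : Type} [Field F] [NumberField F] {Γ Γ₁ : Subgroup (Gl F)} {a b c : Fˣ}
  {Φ : Subgroup (Perm (V6 a b c))}

theorem par (h : Std6 Γ Γ₁ Φ) {γ : Gl F} (hγ : γ ∈ Γ) : Par (γ : F →+* F) a b c a b c :=
  ⟨h.fx.1 γ hγ, h.fx.2.1 γ hγ, h.fx.2.2 γ hγ⟩

theorem comm_inner (h : Std6 Γ Γ₁ Φ) {x η : Alb a b c} (hx : ∀ γ ∈ Γ₁, jA γ x = x)
    (hη : ∀ γ ∈ Γ₁, jA γ η = η) {φ : Perm (V6 a b c)} (hφ : φ ∈ Φ) {γ : Gl F} (hγ : γ ∈ Γ₁)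
    (hs : Semi γ φ) (v : V6 a b c) : φ (VopL x η v) = VopL x η (φ v) := by
  obtain ⟨l, hl⟩ := h.std φ hφ γ hγ hs
  obtain ⟨ε, ν₁, ν₂, m, h1⟩ := h.dat.sim_of hφ hs
  obtain rfl : ε = false := h1.inner_iff.1 fun x => by rw [hl]
  have h2 : ∀ x, fs6 φ false x = l • jA γ x := fun x => congrArg Prod.fst (hl x)
  have l0 : l ≠ 0 := by
    rintro rfl
    obtain ⟨z, hz⟩ := h1.pr.b1.2 e1
    rw [h2, zero_smul] at hz
    exact zero_ne_one (congrArg Alb.d1 hz)
  have h3 : sn6 φ false η = (m / l) • η := eq_of_tf fun w => by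
    obtain ⟨w, rfl⟩ := jA_surj γ w
    have h4 := h1.pr.tf w η
    rw [h2, tf_smul_left, ← show _ = γ _ from tf_jA (par h (h.le hγ)) w η] at h4
    change l * tf (jA γ w) _ = m * tf (jA γ w) (jA γ η) at h4
    rw [hη γ hγ] at h4
    rw [tf_smul_left, tf_comm, tf_comm η, div_mul_eq_mul_div, eq_div_iff l0]
    linear_combination h4
  have h4 := h1.Vop_false x η v
  rw [h2, h3, hx γ hγ, ← VopL_apply, ← VopL_apply, VopL_smul, mul_div_cancel₀ _ l0,
    LinearMap.smul_apply] at h4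
  exact (smul_right_injective _ h1.ne.2.2 h4).symm

theorem comm_outer (h : Std6 Γ Γ₁ Φ) {s : Gl F} (hs : s ∈ Γ) {g : Fin 3 → Fˣ} {x y ξ η : Alb a b c}
    {t : F} (ht : t ≠ 0) (h1 : wt g (jA s x) = t • ξ) (h2 : wt g y = t • jA s η)
    (h3 : VopL y ξ = -VopL x η) {φ : Perm (V6 a b c)} (hφ : φ ∈ Φ) (hse : Semi s φ) {l : F}
    (hl : ∀ x, φ (x, 0) = (0, l • wt g (jA s x))) (v : V6 a b c) :
    φ (VopL x η v) = VopL x η (φ v) := by
  obtain ⟨ε, ν₁, ν₂, m, k1⟩ := h.dat.sim_of hφ hse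
  have n0 : φ (e1, 0) ≠ 0 := hse.ne_zero fun h0 => by
    have k : (e1 : Alb a b c) = 0 := congrArg Prod.fst h0
    exact one_ne_zero (congrArg Alb.d1 k)
  have l0 : l ≠ 0 := by
    rintro rfl
    exact n0 (by rw [hl, zero_smul]; rfl)
  obtain rfl : ε = true := by
    cases ε
    · exact absurd (Prod.ext (by rw [hl]; rfl) (k1.snd_zero rfl)) n0
    · rfl
  have k2 : ∀ x, sn6 φ true x = l • wt g (jA s x) := fun x => congrArg Prod.snd (hl x)
  have k3 : fs6 φ true η = (m / (l * t)) • y := eq_of_tf fun w => by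
    obtain ⟨w, rfl⟩ := k1.pr.b2.2 w
    rw [k1.pr.tf, k2, tf_smul_left, tf_smul_right, ← tf_wt, h2, tf_smul_left,
      show tf (jA s η) (jA s w) = s _ from tf_jA (par h hs) η w]
    field_simp
  have k4 := k1.Vop_true x η v
  have k5 : sn6 φ true x = (l * t) • ξ := by rw [k2, h1, mul_smul]
  have k6 := VopL_smul (m / (l * t)) (l * t) y ξ
  rw [← k3, ← k5, div_mul_cancel₀ _ (mul_ne_zero l0 ht), h3, ← neg_one_smul F (VopL x η), smul_smul,
    mul_neg_one] at k6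
  have k7 := (VopL_apply _ _ _).symm.trans (LinearMap.congr_fun k6 (φ v))
  have k8 := k4.symm.trans k7
  have k9 : -m • φ (Vop x η v) = -m • VopL x η (φ v) := k8
  rw [VopL_apply x η v]
  exact smul_right_injective _ (neg_ne_zero.2 k1.ne.2.2) k9

/-- The elements of a form over the ground field of the Peirce space of the third idempotent. -/
def zz (s : F → F) (g : Fin 3 → Fˣ) (q α : F) (u : Oct a b c) : Alb a b c :=
  ⟨α, g 0 / g 1 * s α, 0, 0, 0, q • u⟩

theorem not_ani (h : Std6 Γ Γ₁ Φ) {s : Gl F} (hs : s ∈ Γ) (hΓ : ∀ γ ∈ Γ, γ ∈ Γ₁ ∨ s * γ ∈ Γ₁)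
    (hs1 : s ∉ Γ₁) {g : Fin 3 → Fˣ} (hg : ∀ i, Fx Γ (g i : F))
    (hφ : ∀ φ ∈ Φ, Semi s φ → ∃ l : F, ∀ x, φ (x, 0) = (0, l • wt g (jA s x))) {q α : F}
    (hq : Fx Γ₁ q) (hq1 : s q = -q) (hq0 : q ≠ 0) (hα : Fx Γ₁ α) {u : Oct a b c}
    (hu : ∀ γ ∈ Γ, jO γ u = u) (h0 : α ≠ 0 ∨ u ≠ 0)
    (he : g 0 / g 1 * (α * s α) = q ^ 2 * norm u) : ¬ Ani (Pts (S6 a b c) Φ) := by
  have g0 := (g 0).ne_zero
  have g1 := (g 1).ne_zero
  have hss : ∀ x, Fx Γ₁ x → s (s x) = x := fun x hx => hx _ ((hΓ s hs).resolve_left hs1)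
  have hsf : ∀ x, Fx Γ₁ x → Fx Γ₁ (s x) := fun x hx γ hγ => by
    have h1 := h.nm s⁻¹ (Γ.inv_mem hs) γ hγ
    rw [inv_inv] at h1
    have h2 := congrArg s (hx _ h1)
    rwa [AlgEquiv.mul_apply, AlgEquiv.mul_apply, ← AlgEquiv.mul_apply s, mul_inv_cancel,
      AlgEquiv.one_apply] at h2
  have z0 : ∀ γ : Gl F, (jO γ (0 : Oct a b c) : Oct a b c) = 0 := fun γ => jO_zero (γ : F →+* F)
  have zs : ∀ (γ : Gl F) (t : F) (x : Oct a b c), (jO γ (t • x) : Oct a b c) = γ t • jO γ x :=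
    fun γ => jO_smul (γ : F →+* F)
  have zc : ∀ (β : F) (v : Oct a b c), cross (zz s g q β v) e3 =
      ⟨g 0 / g 1 * s β, β, 0, 0, 0, (-q) • v⟩ := fun β v => by
    ext1 <;> simp [cross, zz, e3]
  have f1 : ∀ {β : F} {v : Oct a b c}, Fx Γ₁ β → (∀ γ ∈ Γ, jO γ v = v) →
      (∀ γ ∈ Γ₁, jA γ (zz s g q β v) = zz s g q β v) ∧
      (∀ γ ∈ Γ₁, jA γ (cross (zz s g q β v) e3) = cross (zz s g q β v) e3) ∧
      wt g (jA s (zz s g q β v)) = (g 0 * g 1 : F) • cross (zz s g q β v) e3 ∧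
      wt g (zz s g q β v) = (g 0 * g 1 : F) • jA s (cross (zz s g q β v) e3) := by
    intro β v hβ hv
    have k : ∀ γ ∈ Γ₁, γ (g 0 / g 1 * s β) = g 0 / g 1 * s β := fun γ hγ => by
      rw [map_mul, map_div₀, hg 0 γ (h.le hγ), hg 1 γ (h.le hγ), hsf β hβ γ hγ]
    have k' : s (g 0 / g 1 * s β) = g 0 / g 1 * β := by
      rw [map_mul, map_div₀, hg 0 s hs, hg 1 s hs, hss β hβ]
    rw [zc]
    refine ⟨fun γ hγ => ?_, fun γ hγ => ?_, ?_, ?_⟩
    · simp only [jA, zz, hβ γ hγ, k γ hγ, map_zero, z0, zs, hq γ hγ, hv γ (h.le hγ)]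
    · simp only [jA, hβ γ hγ, k γ hγ, map_zero, z0, zs, map_neg, hq γ hγ, hv γ (h.le hγ)]
    · ext1 <;> simp only [wt, jA, zz, k', map_zero, z0, zs, hq1, hv s hs, d1_smul, d2_smul,
        d3_smul, x1_smul, x2_smul, x3_smul, mul_zero, smul_zero] <;> field_simp
    · ext1 <;> simp only [wt, jA, zz, k', map_zero, z0, zs, map_neg, hq1, hv s hs, d1_smul, d2_smul,
        d3_smul, x1_smul, x2_smul, x3_smul, mul_zero, smul_zero, neg_neg] <;> field_simp
  have hx : adj (zz s g q α u) = 0 := by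
    ext1 <;> simp [adj, zz, Oct.norm_smul]
    linear_combination he
  obtain ⟨β, v, hβ, hv, k1, k2⟩ : ∃ (β : F) (v : Oct a b c), Fx Γ₁ β ∧ (∀ γ ∈ Γ, jO γ v = v) ∧
      cross (zz s g q α u) (zz s g q β v) = 0 ∧
      g 0 / g 1 * (β * s β) - q ^ 2 * norm v ≠ 0 := by
    by_cases hn : norm u = 0
    · have h1 : α = 0 := by
        rw [hn, mul_zero] at he
        rcases mul_eq_zero.1 ((mul_eq_zero.1 he).resolve_left (div_ne_zero g0 g1)) with h1 | h1
        exacts [h1, (map_eq_zero s).1 h1]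
      refine ⟨1, 0, fx_one, fun γ _ => z0 γ, ?_, ?_⟩
      · ext1 <;> simp [cross, zz, h1]
      · simp [g0, g1]
    · refine ⟨0, gi * u, fun γ _ => map_zero γ, fun γ hγ => ?_, ?_, ?_⟩
      · rw [show (jO γ (gi * u) : Oct a b c) = jO γ gi * jO γ u from jO_mul (par h hγ) gi u,
          hu γ hγ]
        congr 1
        apply ext8 <;> first | exact map_zero γ | exact map_one γ
      · have h1 : bil u (gi * u) = 0 := by
          have h2 := bil_mul_mul_right u 1 gi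
          rw [one_mul] at h2
          rw [h2]
          simp [bil_eq, gi]
        ext1 <;> simp [cross, zz, h1, bil_smul_left, bil_smul_right]
      · have h1 : norm (gi : Oct a b c) = -a := by simp [Oct.norm, nrd, gi]
        rw [Oct.norm_mul, h1]
        simp [hq0, hn]
  obtain ⟨a1, -, a3, -⟩ := f1 hα hu
  obtain ⟨-, b2, -, b4⟩ := f1 hβ hv
  have k3 : tf (zz s g q α u) (cross (zz s g q β v) e3) = 0 := by
    rw [← tf_cross, k1, tf_zero_left]
  refine not_ani_of_nilp h.dat.ov (VopL_mem k3) (VopL_cube hx k3) (fun k4 => ?_) fun φ hφ' w => ?_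
  · have k5 := congrArg (fun Y => (Y (zz s g q β v, 0)).1) k4
    simp only [VopL_apply', vop_apply, k1, cross_zero_right, sub_zero, LinearMap.zero_apply,
      Prod.fst_zero] at k5
    have k6 : tf (cross (zz s g q β v) e3) (zz s g q β v) =
        2 * (g 0 / g 1 * (β * s β) - q ^ 2 * norm v) := by
      rw [zc]
      simp only [tf, zz, bil_smul_left, bil_smul_right, bil_zero_left, bil_self v]
      ring
    rw [k6] at k5
    have k7 := (smul_eq_zero.1 k5).resolve_left (mul_ne_zero two_ne_zero k2)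
    rcases h0 with h0 | h0
    · exact h0 (congrArg Alb.d1 k7)
    · exact h0 ((smul_eq_zero.1 (congrArg Alb.x3 k7)).resolve_left hq0)
  · obtain ⟨γ, hγ, hse⟩ := h.dat.ov.semi φ hφ'
    rcases hΓ γ hγ with h1 | h1
    · exact comm_inner h a1 b2 hφ' h1 hse w
    · obtain ⟨ψ, hψ, hψs⟩ := h.dat.ov.onto s hs
      obtain ⟨l, hl⟩ := hφ ψ hψ hψs
      apply ψ.injective
      rw [comm_outer h hs (mul_ne_zero g0 g1) a3 b4 (VopL_anti k1 e3) hψ hψs hl]
      exact comm_inner h a1 b2 (Φ.mul_mem hψ hφ') h1 (hψs.mul hse) w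

end unip

section arith

theorem exists_pair {E : Type} [Field E] [NumberField E] (f : (E →+* ℝ) → ℝ × ℝ → ℝ)
    (hf : ∀ P, Continuous (f P)) (R : Set (E →+* ℝ)) (h : ∀ P ∈ R, ∃ z, 0 < f P z) :
    ∃ t m : E, ∀ P ∈ R, 0 < f P (P t, P m) := by
  have h1 : ∀ P, ∃ (z : ℝ × ℝ) (ε : ℝ), 0 < ε ∧ (P ∈ R → ∀ y, dist y z < ε → 0 < f P y) := by
    intro P
    by_cases hP : P ∈ R
    · obtain ⟨z, hz⟩ := h P hP
      obtain ⟨ε, hε, h2⟩ := Metric.isOpen_iff.1 (isOpen_lt continuous_const (hf P)) z hz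
      exact ⟨z, ε, hε, fun _ y hy => h2 hy⟩
    · exact ⟨0, 1, one_pos, fun h2 => absurd h2 hP⟩
  choose z ε hε h1 using h1
  obtain ⟨t, ht⟩ := RM.approx_real (fun P => (z P).1) ε hε
  obtain ⟨m, hm⟩ := RM.approx_real (fun P => (z P).2) ε hε
  exact ⟨t, m, fun P hP => h1 P hP _ (max_lt (ht P) (hm P))⟩

theorem exists_sol {E : Type} [Field E] [NumberField E] (a b : Eˣ) {c κ g : E} (hc : c ≠ 0)
    (hκ : κ ≠ 0) (hg : g ≠ 0)
    (h : ∀ P : E →+* ℝ, P a < 0 → P b < 0 → P c < 0 → P κ < 0 → P g < 0) :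
    ∃ t m x y z u : E,
      g * (t ^ 2 - κ) = κ * (x ^ 2 - a * y ^ 2 - b * z ^ 2 + a * b * u ^ 2 - c * m ^ 2) := by
  obtain ⟨t, m, h1⟩ := exists_pair
    (fun (P : E →+* ℝ) (z : ℝ × ℝ) => P g / P κ * (z.1 ^ 2 - P κ) + P c * z.2 ^ 2)
    (fun P => by fun_prop) {P | P a < 0 ∧ P b < 0} fun P hP => by
      have k0 : P κ ≠ 0 := (map_ne_zero P).2 hκ
      rcases lt_or_gt_of_ne ((map_ne_zero P).2 hg) with h2 | h2
      · refine ⟨(0, 0), ?_⟩
        have : P g / P κ * (0 ^ 2 - P κ) + P c * 0 ^ 2 = -P g := by field_simp; ring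
        change 0 < P g / P κ * (0 ^ 2 - P κ) + P c * 0 ^ 2
        linarith
      rcases lt_or_gt_of_ne k0 with h3 | h3
      · have h4 : 0 < P c := lt_of_le_of_ne
          (not_lt.1 fun h4 => absurd (h P hP.1 hP.2 h4 h3) (not_lt.2 h2.le))
          ((map_ne_zero P).2 hc).symm
        refine ⟨(0, P g / P c + 1), ?_⟩
        have : P g / P κ * (0 ^ 2 - P κ) + P c * (P g / P c + 1) ^ 2 =
            P g ^ 2 / P c + P g + P c := by field_simp; ring
        change 0 < P g / P κ * (0 ^ 2 - P κ) + P c * (P g / P c + 1) ^ 2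
        rw [this]
        positivity
      · refine ⟨(P κ + 1, 0), ?_⟩
        have : P g / P κ * ((P κ + 1) ^ 2 - P κ) + P c * 0 ^ 2 =
            P g / P κ * (P κ ^ 2 + P κ + 1) := by ring
        change 0 < P g / P κ * ((P κ + 1) ^ 2 - P κ) + P c * 0 ^ 2
        rw [this]
        positivity
  by_cases h0 : g / κ * (t ^ 2 - κ) + c * m ^ 2 = 0
  · refine ⟨t, m, 0, 0, 0, 0, ?_⟩
    field_simp at h0
    linear_combination h0
  obtain ⟨x, y, z, u, h2⟩ := Vale.Agent.P011.Arith.Sch.quaternion_norm a b (Units.mk0 _ h0)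
    fun P k1 k2 => by
      have := h1 P ⟨k1, k2⟩
      simpa using this
  refine ⟨t, m, x, y, z, u, ?_⟩
  rw [← h2, Units.val_mk0]
  field_simp
  ring

end arith

end Vale.Agent.P011N.Cl.M3
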