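import Vale.Agent.P011N.Cl.MD.Der

/-!
The inner model.
-/

namespace Vale.Agent.P011N.Cl.MD

open Vale.Agent.P011.MPQ Vale.Agent.P011.D4 Vale.Agent.P011.D4.Oct Vale.Agent.P011.E6 Equiv Module
open Vale.Agent.P011.E6.Alb Vale.Agent.P011N.Cl.EI

/-- The stabilizer of a line. -/
def Ls {F V : Type} [Field F] [CharZero F] [AddCommGroup V] [Module F V] {Γ : Subgroup (Gl F)}
    {Φ : Subgroup (Perm V)} (h : Over Γ Φ) {v : V} (hv : v ≠ 0) : Subgroup (Perm V) where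
  carrier := {φ | φ ∈ Φ ∧ ∃ t : F, φ v = t • v}
  mul_mem' := by
    rintro φ φ' ⟨h1, t, h2⟩ ⟨k1, t', k2⟩
    obtain ⟨γ, -, h3⟩ := h.semi φ h1
    exact ⟨Φ.mul_mem h1 k1, γ t' * t, by rw [Perm.mul_apply, k2, h3.smul, h2, smul_smul]⟩
  one_mem' := ⟨Φ.one_mem, 1, (one_smul F v).symm⟩
  inv_mem' := by
    rintro φ ⟨h1, t, h2⟩
    obtain ⟨γ, -, h3⟩ := h.semi φ h1
    have h4 : t ≠ 0 := fun h4 => h3.ne_zero hv (by rw [h2, h4, zero_smul])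
    refine ⟨Φ.inv_mem h1, γ.symm t⁻¹, ?_⟩
    rw [Perm.inv_eq_iff_eq, h3.smul, γ.apply_symm_apply, h2, inv_smul_smul₀ h4]

variable {F : Type} [Field F] [NumberField F] {Γ Γ₁ : Subgroup (Gl F)} {a b c : Fˣ}
  {Φ : Subgroup (Perm (V6 a b c))} {r : Gl F} {p : Perm (V6 a b c)}

theorem gen_three (h3 : r ^ 3 ∈ Γ₁)
    (hc : ∀ γ ∈ Γ, γ ∈ Γ₁ ∨ r⁻¹ * γ ∈ Γ₁ ∨ r * γ ∈ Γ₁) :
    ∀ γ ∈ Γ, ∃ i j : ℕ, r ^ i * r ^ j * γ ∈ Γ₁ := fun γ hγ => by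
  rcases hc γ hγ with h | h | h
  · exact ⟨0, 0, by simpa using h⟩
  · refine ⟨2, 0, ?_⟩
    convert Γ₁.mul_mem h3 h using 1
    group
  · exact ⟨1, 0, by simpa using h⟩

/-- The parameter of an anisotropic inner form is not a norm. -/
theorem not_norm (hU : UNStmt) (hΦ : Std6 Γ Γ₁ Φ) (hp : p ∈ Φ) (hr : Semi r p)
    (hg : ∀ γ ∈ Γ, ∃ i j : ℕ, r ^ i * r ^ j * γ ∈ Γ₁) {s : F} (h0 : s ≠ 0) (h1 : Fx Γ₁ s)
    (h2 : Fx Γ₁ (r s)) {l : F} (h3 : ∀ x, p (x, 0) = (l • ph6 r (s * r s * r (r s)) x, 0)) :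
    ¬ Ani (Pts (S6 a b c) Φ) := by
  let v : Alb a b c := ⟨1, s ^ 2, s ^ 2 * r s ^ 2, (s ^ 2 * r s) • 1, (s * r s) • 1, s • 1⟩
  have h4 : v ≠ 0 := fun h => one_ne_zero (congrArg Alb.d1 h)
  have h5 : p ∈ Ls hΦ.dat.ov (inl_ne h4) := by
    refine ⟨hp, l * (r s * r (r s) / s), ?_⟩
    have h5 : r s ≠ 0 := (map_ne_zero r).2 h0
    have h6 : r (r s) ≠ 0 := (map_ne_zero r).2 h5
    rw [h3, mul_smul, ← smul_inl, ← smul_inl]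
    congr 2
    ext1 <;> simp only [v, ph6, d1_smul, d2_smul, d3_smul, x1_smul, x2_smul, x3_smul, jO_smul,
      jO_one, smul_smul, map_mul, map_pow, map_one]
    iterate 3 field_simp
    all_goals
      congr 1
      field_simp
  refine hU F Γ a b c Φ hΦ.dat v h4 ?_ fun φ hφ => (le_of_gen (K := Ls hΦ.dat.ov (inl_ne h4))
    hΦ.dat.ov hp hp hr hr hg (fun φ k1 γ k2 k3 => ⟨k1, ?_⟩) h5 h5 hφ).2
  · ext1 <;> simp [v, adj, Oct.norm_smul, smul_smul, star_smul_oct, ← sub_smul] <;> ring_nf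
  · obtain ⟨t, k4⟩ := hΦ.std φ k1 γ k2 k3
    refine ⟨t, ?_⟩
    rw [k4, smul_inl]
    simp only [v, jA, jO_smul, jO_one, map_mul, map_pow, map_one, h1 γ k2, h2 γ k2]

theorem md4Stmt (hE : ClE2 Simp) (hU : UNStmt) : MD4Stmt := by
  intro F _ _ Γ Γ₁ a b c Φ hΦ r hr h1 h3 hc e h0 he hp hA
  obtain ⟨E, _, _, ι, a₀, b₀, c₀, hD⟩ := exists_dsc hΦ
  obtain ⟨r₀, hr₀⟩ := hD.dn r hr
  obtain ⟨e₀, rfl⟩ := (hD.rng e).2 (he.mono hΦ.le)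
  obtain ⟨p, k1, k2⟩ := hΦ.dat.ov.onto r hr
  have hg := gen_three h3 hc
  obtain ⟨l, k3⟩ := hp p k1 k2
  refine simp_model hΦ hD (fun f g k4 k5 => ?_) (hE E r₀ a₀ b₀ c₀ e₀ (hD.aut hr₀ h3 h1)
    (dvn_of_ani hΦ hD k1 k1 k2 k2 hg ⟨l, Or.inl ⟨_, k3⟩⟩ ⟨l, Or.inl ⟨_, k3⟩⟩ hA hr₀ hr₀
      fun t => by simp) ⟨over_fix hr₀ (he r hr), fun s hs => ?_⟩)
  · rw [k5.comm_all k4 hΦ hD k1 k1 k2 k2 hg, and_self, k5.comm_ph k4 hΦ.dat k1 hr₀ ⟨l, k3⟩,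
      ← ph_ae]
  · subst hs
    refine not_norm hU hΦ k1 k2 hg (s := ι s) (fun h => h0 ?_) ((hD.rng _).1 ⟨s, rfl⟩)
      ((hD.rng _).1 ⟨_, (hr₀ s).symm⟩) (l := l) (fun x => ?_) hA
    · rw [map_mul, map_mul, h, zero_mul, zero_mul]
    · rw [k3, map_mul, map_mul, hr₀, hr₀]

end Vale.Agent.P011N.Cl.MD
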