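import Vale.Agent.P011N.Cl.MD.Der

/-!
The outer model with nontrivial Tits class.
-/

namespace Vale.Agent.P011N.Cl.MD

open Vale.Agent.P011.MPQ Vale.Agent.P011.D4 Vale.Agent.P011.D4.Oct Vale.Agent.P011.E6 Equiv Module
open Vale.Agent.P011.E6.Alb
open Vale.Agent.P011.H900 (Al ae Cub Her Ph Dvn)

/-- (MD5) -/
theorem md5Stmt (hC : ClE3A Simp) : MD5Stmt := by
  intro F _ _ Γ Γ₁ a b c Φ hΦ r hr s hs hr1 hs1 hr3 hs2 hrs hgen e t g he hre hne ht hst hg g1 g2 g0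
    hp hq han hA
  obtain ⟨E, _, _, ι, a₀, b₀, c₀, hD⟩ := exists_dsc hΦ
  obtain ⟨r₀, hr₀⟩ := hD.dn r hr
  obtain ⟨s₀, hs₀⟩ := hD.dn s hs
  obtain ⟨e, rfl⟩ := (hD.rng e).2 he
  obtain ⟨t, rfl⟩ := (hD.rng t).2 ht
  choose w hw using fun i => exists_unit ((hD.rng (g i)).2 (hg i).1)
  obtain ⟨p, p1, p2⟩ := hΦ.dat.ov.onto r hr
  obtain ⟨q, q1, q2⟩ := hΦ.dat.ov.onto s hs
  have hP : ∀ γ ∈ Γ, Par γ a b c a b c := fun γ hγ => par_of_fx hΦ.fx.1 hΦ.fx.2.1 hΦ.fx.2.2 hγ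
  have hl : ∀ ρ ∈ [(r₀ : E → E), s₀], Par ρ a₀ b₀ c₀ a₀ b₀ c₀ := by
    simp only [List.mem_cons, List.not_mem_nil, or_false, forall_eq_or_imp, forall_eq]
    exact ⟨hD.par₀ hr₀ (hP r hr), hD.par₀ hs₀ (hP s hs)⟩
  refine simp_model hΦ hD (Q := fun f => Her (c₀ : E) s₀ (fun i => (w i : E)) f ∧ Ph r₀ e f)
    (fun f g' hg' hov => (hov.comm_all hg' hΦ hD p1 q1 p2 q2 hgen).trans (and_comm.trans
      (and_congr ((hov.comm_her hD.par hg' hΦ.dat q1 hs₀ hw (hq q q1 q2)).trans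
        (her_iff_ae _ _ _).symm)
      ((hov.comm_ph hg' hΦ.dat p1 hr₀ (hp p p1 p2)).trans (ph_ae _ _ _).symm))))
    (hC E r₀ s₀ a₀ b₀ c₀ e t _ (hD.aut hr₀ hr3 hr1) (hD.aut hs₀ hs2 hs1) (fun x => ι.injective ?_)
      (dvn_of_ani hΦ hD p1 q1 p2 q2 hgen ((hp p p1 p2).imp fun _ h => Or.inl ⟨_, h⟩)
        ((hq q q1 q2).imp fun _ h => Or.inr ⟨_, h⟩) hA hr₀ hs₀ (by simp))
      ⟨over_fix hr₀ hre, fun x hx => hne (ι x) ((hD.rng _).1 ⟨x, rfl⟩) ?_⟩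
      ⟨fun i => over_fix hs₀ (by rw [hw, (hg i).2]), (w 0).ne_zero, over_fix hs₀ hst,
        ι.injective ?_, ι.injective ?_, ι.injective ?_⟩ (han.imp (fun h x hx => ?_) fun h => ?_))
  · have h := hD.fix hrs (s₀ (r₀ x))
    rw [← hs₀, ← hr₀] at h
    rw [← hr₀, ← hs₀, ← hs₀, ← hr₀, ← h]
    simp
  · rw [← hx, map_mul, map_mul, hr₀, hr₀]
  · rw [map_mul, ← hr₀, hw, hw, g1]
  · rw [map_mul, ← hr₀, hw, hw, g2]
  · rw [map_mul, map_mul, map_mul, ← hr₀, ← hs₀, hw, hw, g0]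
  · rw [her_ae] at hx
    have h1 := h (jA ι (ae a₀ b₀ c₀ x)) (fun γ hγ => hD.jA_fix hγ _) (by
      rw [wt_over hw, jA_over hs₀, tf_jA hD.par, hx, map_zero])
    exact (ae a₀ b₀ c₀).injective ((bc_jA ι).inj (h1.trans (jA_zero ι).symm))
  · refine dvn_of hl fun y _ hy => (bc_jO ι).inj ((h (jO ι y) (fun γ hγ => ?_) ?_).trans
      (jO_zero ι).symm)
    · exact jO_over (γ₀ := 1) (hD.fix hγ) y
    · rw [norm_jO hD.par, hy, map_zero]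

end Vale.Agent.P011N.Cl.MD
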